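import Vale.Agent.P011Z.ModE6.Her
import Vale.Agent.P011Z.Split

/-!
The system of tensors of an outer group of type `E₆`.
-/

open Matrix Module

namespace Vale.Agent.P011Z.E6

open Vale.Agent.P011.H900

/-- The data. -/
structure Dt {F : Type} [Field F] (R S : F →+* F) (a b c e : F) (g : Fin 3 → F) : Prop where
  a0 : a ≠ 0
  b0 : b ≠ 0
  c0 : c ≠ 0
  e0 : e ≠ 0
  g0 : ∀ i, g i ≠ 0
  R3 : ∀ x, R (R (R x)) = x
  S2 : ∀ x, S (S x) = x
  R1 : R ≠ 1
  S1 : S ≠ 1
  RS : ∀ x, R (S x) = S (R x)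
  Ra : R a = a
  Rb : R b = b
  Rc : R c = c
  Sa : S a = a
  Sb : S b = b
  Sc : S c = c
  Re : R e = e
  Sg : ∀ i, S (g i) = g i
  w1 : e⁻¹ * R (g 1 / g 2) = g 2 / g 0 * S e
  w2 : R (R (g 1 / g 2)) = g 0 / g 1

variable {F : Type} [Field F] [CharZero F] {R S : F →+* F} {a b c e : F} {g : Fin 3 → F}

namespace Dt

variable (D : Dt R S a b c e g)

/-- The system of tensors. -/
def sys : SysF F Ix where
  T := {t2 (RingHom.id F) S (hb c g : Al a b →ₗ[F] _), t3 (N c : Al a b →ₗ[F] _),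
    t2 R S ((hb c g : Al a b →ₗ[F] _).comp (pl e))}
  fin := Set.toFinite _
  σ := ![RingHom.id F, S]
  B := Matrix.of fun i j => hb c g (bas a b i) (bas a b j)
  detB := fun h => by
    obtain ⟨v, hv, h0⟩ := Matrix.exists_mulVec_eq_zero_iff.2 h
    refine hv ((co a b).symm.injective ?_)
    rw [map_zero]
    refine hb_nondeg D.a0 D.b0 D.c0 D.g0 fun x => ?_
    obtain ⟨w, rfl⟩ := (co a b).symm.surjective x
    rw [co_symm_eq w, map_sum, LinearMap.sum_apply]
    refine Finset.sum_eq_zero fun i _ => ?_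
    have h1 : hb c g (bas a b i) ((co a b).symm v) = 0 := by
      rw [co_symm_eq, map_sum]
      simpa [mulVec, dotProduct, mul_comm] using congrFun h0 i
    rw [map_smul, LinearMap.smul_apply, h1, smul_zero]
  memB := Or.inl rfl

theorem forall_T (p : TnF F Ix → Prop) : (∀ t ∈ D.sys.T, p t) ↔
    p (t2 (RingHom.id F) S (hb c g : Al a b →ₗ[F] _)) ∧ p (t3 (N c : Al a b →ₗ[F] _)) ∧
      p (t2 R S ((hb c g : Al a b →ₗ[F] _).comp (pl e))) := by
  simp [sys]

theorem mem_mon (X : End F (Al a b)) : mat a b X ∈ D.sys.mon ↔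
    (∀ x y, her c S g (X x) (X y) = her c S g x y) ∧
      (∀ x y z, N c (X x) (X y) (X z) = N c x y z) ∧
      ∀ x y, her c S g (ph R e (X x)) (X y) = her c S g (ph R e x) y := by
  refine (D.forall_T _).trans (and_congr ?_ (and_congr ?_ ?_))
  · simp only [ev_t2, co_mat]
    exact ⟨fun h x y => by simpa [her_eq, ph_eq, mpA_id] using h ![co a b x, co a b y], fun h x => h _ _⟩
  · simp only [ev_t3, co_mat]
    exact ⟨fun h x y z => by simpa using h ![co a b x, co a b y, co a b z], fun h x => h _ _ _⟩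
  · simp only [ev_t2, co_mat]
    exact ⟨fun h x y => by simpa [her_eq, ph_eq, mpA_id] using h ![co a b x, co a b y], fun h x => h _ _⟩

theorem mem_lie (X : End F (Al a b)) : mat a b X ∈ D.sys.lie ↔
    (∀ x y, her c S g (X x) y + her c S g x (X y) = 0) ∧ X ∈ Der c ∧
      ∀ x y, her c S g (ph R e (X x)) y + her c S g (ph R e x) (X y) = 0 := by
  have e2 : ∀ (σ σ' : F →+* F) (f : Al a b →ₗ[F] Al a b →ₗ[F] F) (x : Fin 2 → Ix → F),
      ∑ r, (t2 σ σ' f).ev (Function.update x r (mat a b X *ᵥ x r)) =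
        f (mpA σ a b (X ((co a b).symm (x 0)))) (mpA σ' a b ((co a b).symm (x 1))) +
        f (mpA σ a b ((co a b).symm (x 0))) (mpA σ' a b (X ((co a b).symm (x 1)))) := by
    intro σ σ' f x
    refine (Fin.sum_univ_two _).trans ?_
    rw [ev_t2, ev_t2]
    simp [co_mat]
  have e3 : ∀ x : Fin 3 → Ix → F,
      ∑ r, (t3 (N c : Al a b →ₗ[F] _)).ev (Function.update x r (mat a b X *ᵥ x r)) =
        N c (X ((co a b).symm (x 0))) ((co a b).symm (x 1)) ((co a b).symm (x 2)) +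
        N c ((co a b).symm (x 0)) (X ((co a b).symm (x 1))) ((co a b).symm (x 2)) +
        N c ((co a b).symm (x 0)) ((co a b).symm (x 1)) (X ((co a b).symm (x 2))) := by
    intro x
    refine (Fin.sum_univ_three _).trans ?_
    rw [ev_t3, ev_t3, ev_t3]
    simp [co_mat]
  refine (D.forall_T _).trans (and_congr ?_ (and_congr ?_ ?_))
  · exact ⟨fun h x y => by
      simpa [her_eq, ph_eq, mpA_id] using (e2 _ _ _ _).symm.trans (h ![co a b x, co a b y]),
      fun h x => (e2 _ _ _ _).trans (h _ _)⟩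
  · exact ⟨fun h x y z => by simpa using (e3 _).symm.trans (h ![co a b x, co a b y, co a b z]),
      fun h x => (e3 _).trans (h _ _ _)⟩
  · exact ⟨fun h x y => by
      simpa [her_eq, ph_eq, mpA_id] using (e2 _ _ _ _).symm.trans (h ![co a b x, co a b y]),
      fun h x => (e2 _ _ _ _).trans (h _ _)⟩

include D

omit [CharZero F] in
theorem RRR (u : Oc a b) : mp R a b (mp R a b (mp R a b u)) = u := by
  apply oext <;> exact D.R3 _

omit [CharZero F] in
theorem SS (u : Oc a b) : mp S a b (mp S a b u) = u := by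
  apply oext <;> exact D.S2 _

omit [CharZero F] in
theorem RSu (u : Oc a b) : mp R a b (mp S a b u) = mp S a b (mp R a b u) := by
  apply oext <;> exact D.RS _

omit [CharZero F] in
theorem skew (i : Fin 3) (u : Oc a b) (x y : Al a b) :
    her c S g ((U c i u + L c i (-(g (i + 1) / g (i + 2)) • mp S a b u)) x) y +
      her c S g x ((U c i u + L c i (-(g (i + 1) / g (i + 2)) • mp S a b u)) y) = 0 := by
  have h1 := hb_U_L c g i u x (mpA S a b y)
  have h2 := hb_U_L c g i (mp S a b u) (mpA S a b y) x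
  rw [hb_comm c g _ x, hb_comm c g (mpA S a b y)] at h2
  simp only [her_eq, LinearMap.add_apply, map_add, mpA_add, map_smul, LinearMap.smul_apply,
    mpA_smul, ← U_mpA D.Sa D.Sb D.Sc, ← L_mpA D.Sa D.Sb D.Sc, D.SS, map_neg, map_div₀, D.Sg,
    smul_eq_mul]
  have h3 := D.g0 (i + 2)
  field_simp
  linear_combination h1 + h2

/-- The partner. -/
def vv (S : F →+* F) (g : Fin 3 → F) (u : Oc a b) : Oc a b := -(g 1 / g 2) • mp S a b u

/-- The elements of the Lie algebra. -/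
def YY (R S : F →+* F) (c e : F) (g : Fin 3 → F) (u : Oc a b) : End F (Al a b) :=
  U c 0 u + L c 0 (vv S g u) + (U c 1 (e • mp R a b u) + L c 1 (e⁻¹ • mp R a b (vv S g u))) +
    (U c 2 (mp R a b (mp R a b u)) + L c 2 (mp R a b (mp R a b (vv S g u))))

omit [CharZero F] in
theorem YY_ph (u : Oc a b) (x : Al a b) :
    ph R e (YY R S c e g u x) = YY R S c e g u (ph R e x) := by
  simp only [ph_eq, YY, LinearMap.add_apply, mpA_add, map_add, ← U_mpA D.Ra D.Rb D.Rc,
    ← L_mpA D.Ra D.Rb D.Rc, mp_smul, map_inv₀, D.Re, D.RRR]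
  rw [pl_U0 c D.e0, pl_U1 c D.e0, pl_U2, pl_L0 c D.e0, pl_L1 c D.e0, pl_L2]
  abel

omit [CharZero F] in
theorem YY_skew (u : Oc a b) (x y : Al a b) :
    her c S g (YY R S c e g u x) y + her c S g x (YY R S c e g u y) = 0 := by
  have h0 := D.skew 0 u x y
  have h1 := D.skew 1 (e • mp R a b u) x y
  have h2 := D.skew 2 (mp R a b (mp R a b u)) x y
  have e1 : e⁻¹ • mp R a b (vv S g u) =
      -(g (1 + 1) / g (1 + 2)) • mp S a b (e • mp R a b u) := by
    rw [vv, mp_smul, mp_smul, smul_smul, smul_smul, D.RSu, map_neg, mul_neg, D.w1, neg_mul]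
    rfl
  have e2 : mp R a b (mp R a b (vv S g u)) =
      -(g (2 + 1) / g (2 + 2)) • mp S a b (mp R a b (mp R a b u)) := by
    rw [vv, mp_smul, mp_smul, map_neg, map_neg, D.w2, D.RSu, D.RSu]
    rfl
  rw [← e1] at h1
  rw [← e2] at h2
  change her c S g ((U c 0 u + L c 0 (vv S g u)) x) y +
    her c S g x ((U c 0 u + L c 0 (vv S g u)) y) = 0 at h0
  simp only [YY, her_eq, mpA_add, map_add, LinearMap.add_apply] at h0 h1 h2 ⊢
  linear_combination h0 + h1 + h2

theorem YY_mem (u : Oc a b) : mat a b (YY R S c e g u) ∈ D.sys.lie := by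
  refine (D.mem_lie _).2 ⟨D.YY_skew u, ?_, fun x y => ?_⟩
  · exact add_mem (add_mem (add_mem (U_der c _ _) (L_der c _ _))
      (add_mem (U_der c _ _) (L_der c _ _))) (add_mem (U_der c _ _) (L_der c _ _))
  · rw [D.YY_ph, D.YY_skew]

omit [CharZero F] in
theorem inj : Function.Injective fun p : Fin 3 × Fin 2 => R ^ (p.1 : ℕ) * S ^ (p.2 : ℕ) := by
  have h3 : R ^ 3 = 1 := RingHom.ext fun x => D.R3 x
  have h2 : S ^ 2 = 1 := RingHom.ext fun x => D.S2 x
  have hc : Commute R S := RingHom.ext fun x => D.RS x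
  have k1 : ∀ i j : ℕ, (R ^ i * S ^ j) ^ 3 = S ^ j := fun i j => by
    rw [(hc.pow_pow i j).mul_pow, ← pow_mul, ← pow_mul, mul_comm i, pow_mul, h3, one_pow, one_mul,
      mul_comm j, pow_mul, pow_succ S 2, h2, one_mul]
  have k2 : ∀ i j : ℕ, (R ^ i * S ^ j) ^ 4 = R ^ i := fun i j => by
    rw [(hc.pow_pow i j).mul_pow, ← pow_mul, ← pow_mul, mul_comm i, pow_mul, pow_succ R 3, h3,
      one_mul, mul_comm j, pow_mul, show S ^ 4 = (S ^ 2) ^ 2 by rw [← pow_mul], h2, one_pow,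
      one_pow, mul_one]
  have r2 : R ^ 2 ≠ 1 := fun h => D.R1 (by rw [← h3, pow_succ R 2, h, one_mul])
  have r21 : R ^ 2 ≠ R := fun h => r2 (by rw [← h3, pow_succ R 2, h, ← pow_two, h])
  rintro ⟨i, j⟩ ⟨i', j'⟩ h
  have a1 : S ^ (j : ℕ) = S ^ (j' : ℕ) := by rw [← k1 i j, ← k1 i' j']; exact congrArg (· ^ 3) h
  have a2 : R ^ (i : ℕ) = R ^ (i' : ℕ) := by rw [← k2 i j, ← k2 i' j']; exact congrArg (· ^ 4) h
  have s1 := D.S1
  have r1 := D.R1
  refine Prod.ext ?_ ?_
  · fin_cases i <;> fin_cases i' <;> simp at a2 ⊢ <;>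
      first | exact r1 a2 | exact r1 a2.symm | exact r2 a2 | exact r2 a2.symm | exact r21 a2 |
        exact r21 a2.symm
  · fin_cases j <;> fin_cases j' <;> simp at a1 ⊢ <;> first | exact s1 a1 | exact s1 a1.symm

/-- The span of the Lie algebra. -/
def Lsp : Submodule F (End F (Al a b)) := Submodule.span F {X | mat a b X ∈ D.sys.lie}

theorem comp_mem (u : Oc a b) (p : Fin 3 × Fin 2) :
    ![![U c 0 u, L c 0 (vv S g u)], ![U c 1 (e • mp R a b u), L c 1 (e⁻¹ • mp R a b (vv S g u))],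
      ![U c 2 (mp R a b (mp R a b u)), L c 2 (mp R a b (mp R a b (vv S g u)))]] p.1 p.2 ∈ D.Lsp := by
  refine descent _ D.inj (fun p : Fin 3 × Fin 2 => ![![U c 0 u, L c 0 (vv S g u)],
    ![U c 1 (e • mp R a b u), L c 1 (e⁻¹ • mp R a b (vv S g u))],
    ![U c 2 (mp R a b (mp R a b u)), L c 2 (mp R a b (mp R a b (vv S g u)))]] p.1 p.2) D.Lsp
    (fun t => ?_) p
  have h : YY R S c e g (t • u) ∈ D.Lsp := Submodule.subset_span (D.YY_mem (t • u))
  refine (congrArg (· ∈ D.Lsp) ?_).mp h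
  have hv : vv S g (t • u) = S t • vv S g u := by rw [vv, vv, mp_smul, smul_comm]
  rw [Fintype.sum_prod_type]
  simp [YY, hv, mp_smul, Fin.sum_univ_three, smul_comm e, smul_comm e⁻¹]

theorem U_mem (i : Fin 3) (u : Oc a b) : U c i u ∈ D.Lsp := by
  fin_cases i
  · exact D.comp_mem u (0, 0)
  · have h := D.comp_mem (mp R a b (mp R a b (e⁻¹ • u))) (1, 0)
    rw [D.RRR, smul_smul, mul_inv_cancel₀ D.e0, one_smul] at h
    exact h
  · have h := D.comp_mem (mp R a b u) (2, 0)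
    rw [D.RRR] at h
    exact h

theorem L_mem (i : Fin 3) (u : Oc a b) : L c i u ∈ D.Lsp := by
  have hv : ∀ w : Oc a b, vv S g (mp S a b ((-(g 1 / g 2))⁻¹ • w)) = w := fun w => by
    rw [vv, D.SS, smul_smul, mul_inv_cancel₀ (neg_ne_zero.2 (div_ne_zero (D.g0 1) (D.g0 2))),
      one_smul]
  fin_cases i
  · have h := D.comp_mem (mp S a b ((-(g 1 / g 2))⁻¹ • u)) (0, 1)
    rw [hv] at h
    exact h
  · have h := D.comp_mem (mp S a b ((-(g 1 / g 2))⁻¹ • mp R a b (mp R a b (e • u)))) (1, 1)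
    rw [hv, D.RRR, smul_smul e⁻¹, inv_mul_cancel₀ D.e0, one_smul] at h
    exact h
  · have h := D.comp_mem (mp S a b ((-(g 1 / g 2))⁻¹ • mp R a b u)) (2, 1)
    rw [hv, D.RRR] at h
    exact h

theorem stable : D.sys.Stable := by
  intro W hW h
  have h1 : ∀ X ∈ D.Lsp, ∀ x ∈ W.comap (co a b).toLinearMap, X x ∈ W.comap (co a b).toLinearMap := by
    intro X hX x hx
    induction hX using Submodule.span_induction with
    | mem X hX =>
      have h2 := h _ hX _ hx
      rw [LinearEquiv.coe_coe, mat_mulVec] at h2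
      exact h2
    | zero => exact Submodule.zero_mem _
    | add X Y _ _ hX hY => exact Submodule.add_mem _ hX hY
    | smul t X _ hX => exact Submodule.smul_mem _ t hX
  obtain ⟨j, hj⟩ := exists_E_mem D.a0 D.b0 D.c0 (W.comap (co a b).toLinearMap) (fun h0 => hW <|
    (Submodule.eq_bot_iff _).2 fun v hv => by
      have h2 : (co a b).symm v ∈ W.comap (co a b).toLinearMap := by simpa using hv
      rw [h0] at h2
      simpa using h2) fun i u => h1 _ (D.U_mem i u)
  refine ⟨_, Or.inl rfl, two_pos, fun _ => co a b (E j), fun _ => hj, ?_⟩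
  rw [ev_t2]
  simp [mpA_E, hb_E, E_fst, D.g0]

theorem scalar (M : Matrix Ix Ix F) (h : ∀ X ∈ D.sys.lie, M * X = X * M) : ∃ t : F, M = t • 1 := by
  obtain ⟨f, rfl⟩ := (mat a b).surjective M
  have h1 : ∀ X ∈ D.Lsp, f * X = X * f := by
    intro X hX
    induction hX using Submodule.span_induction with
    | mem X hX => exact (mat a b).injective (by rw [map_mul, map_mul, h _ hX])
    | zero => simp
    | add X Y _ _ hX hY => rw [mul_add, add_mul, hX, hY]
    | smul t X _ hX => rw [mul_smul_comm, smul_mul_assoc, hX]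
  obtain ⟨t, ht⟩ := scalar_of_comm fun i u => h1 _ (D.U_mem i u)
  exact ⟨t, by rw [show f = t • 1 from LinearMap.ext ht, map_smul, map_one]⟩

variable {Ω : Type} [Field Ω] (τ : F →+* Ω)

theorem map_mem {X : End F (Al a b)} (hX : X ∈ D.Lsp) : (mat a b X).map τ ∈ D.sys.lieE τ := by
  induction hX using Submodule.span_induction with
  | mem X hX => exact Submodule.subset_span ⟨_, hX, rfl⟩
  | zero => simp
  | add X Y _ _ hX hY =>
    rw [map_add, Matrix.map_add _ (map_add τ)]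
    exact Submodule.add_mem _ hX hY
  | smul t X _ hX =>
    have e : (mat a b (t • X)).map τ = τ t • (mat a b X).map τ := by
      ext i j
      simp
    rw [e]
    exact Submodule.smul_mem _ _ hX

omit D [CharZero F] in
theorem mem_of_mp (P : Submodule Ω (Oc (τ a) (τ b))) (h : ∀ u : Oc a b, mp τ (τ a) (τ b) u ∈ P)
    (w : Oc (τ a) (τ b)) : w ∈ P := by
  have e : w = ∑ k, vo w k • mp τ (τ a) (τ b) (ov (Pi.single k 1) : Oc a b) := by
    apply oext <;> simp [Fin.sum_univ_eight, vo, ov, mp]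
  rw [e]
  exact P.sum_mem fun k _ => P.smul_mem _ (h _)

theorem U_lieE (i : Fin 3) (w : Oc (τ a) (τ b)) : mat (τ a) (τ b) (U (τ c) i w) ∈ D.sys.lieE τ :=
  mem_of_mp τ ((D.sys.lieE τ).comap ((mat (τ a) (τ b)).toLinearMap.comp (U (τ c) i)))
    (fun u => by
      have h := D.map_mem τ (D.U_mem i u)
      rwa [mat_map τ (U_mpA rfl rfl rfl i u)] at h) w

theorem L_lieE (i : Fin 3) (w : Oc (τ a) (τ b)) : mat (τ a) (τ b) (L (τ c) i w) ∈ D.sys.lieE τ :=
  mem_of_mp τ ((D.sys.lieE τ).comap ((mat (τ a) (τ b)).toLinearMap.comp (L (τ c) i)))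
    (fun u => by
      have h := D.map_mem τ (D.L_mem i u)
      rwa [mat_map τ (L_mpA rfl rfl rfl i u)] at h) w

theorem der_lieE {M : Matrix Ix Ix Ω} (h : M ∈ D.sys.lieE τ) :
    (mat (τ a) (τ b)).symm M ∈ Der (τ c) := by
  have h1 : D.sys.lieE τ ≤ (Der (τ c)).comap (mat (τ a) (τ b)).symm.toLinearMap := by
    refine Submodule.span_le.2 ?_
    rintro _ ⟨X, hX, rfl⟩
    obtain ⟨Y, rfl⟩ := (mat a b).surjective X
    refine der_map (a := a) (b := b) rfl rfl rfl ?_
    rw [AlgEquiv.symm_apply_apply]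
    exact ((D.mem_lie Y).1 hX).2.1
  exact h1 h

theorem prime [CharZero Ω] : D.sys.Prime τ := by
  have hI : ∀ I : Submodule Ω (Matrix Ix Ix Ω), I ≤ D.sys.lieE τ →
      (∀ X ∈ D.sys.lieE τ, ∀ Y ∈ I, X * Y - Y * X ∈ I) →
      Idl (τ c) (I.comap (mat (τ a) (τ b)).toLinearMap) := by
    intro I h1 h2
    refine ⟨fun X hX => ?_, fun i u X hX => ?_, fun i u X hX => ?_⟩
    · simpa using D.der_lieE τ (h1 hX)
    · simpa using h2 _ (D.U_lieE τ i u) _ hX
    · simpa using h2 _ (D.L_lieE τ i u) _ hX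
  have h0 : ∀ I : Submodule Ω (Matrix Ix Ix Ω), I.comap (mat (τ a) (τ b)).toLinearMap = ⊥ →
      I = ⊥ := by
    intro I h
    refine (Submodule.eq_bot_iff _).2 fun M hM => ?_
    have h2 : (mat (τ a) (τ b)).symm M ∈ I.comap (mat (τ a) (τ b)).toLinearMap := by simpa using hM
    rw [h] at h2
    simpa using h2
  intro I J h1 h2 h3 h4 h5
  refine (E6.prime ((map_ne_zero τ).2 D.a0) ((map_ne_zero τ).2 D.b0) ((map_ne_zero τ).2 D.c0)
    (hI I h1 h3) (hI J h2 h4) fun X hX Y hY => ?_).imp (h0 I) (h0 J)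
  exact (mat (τ a) (τ b)).injective (by rw [map_mul, map_mul]; exact h5 _ hX _ hY)

end Dt

end Vale.Agent.P011Z.E6
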