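import Vale.Agent.P011Z.ModE6.Oct

/-!
The cubic form of the Albert algebra and its derivations.
-/

namespace Vale.Agent.P011Z.E6

open Vale.Agent.P011.H900

variable {K : Type} [Field K] {a b : K} (c : K)

theorem f11 (i : Fin 3) : i + 1 + 1 = i + 2 := by revert i; decide
theorem f12 (i : Fin 3) : i + 1 + 2 = i := by revert i; decide
theorem f21 (i : Fin 3) : i + 2 + 1 = i := by revert i; decide
theorem f22 (i : Fin 3) : i + 2 + 2 = i + 1 := by revert i; decide
theorem n10 (i : Fin 3) : i + 1 ≠ i := by revert i; decide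
theorem n20 (i : Fin 3) : i + 2 ≠ i := by revert i; decide
theorem n01 (i : Fin 3) : i ≠ i + 1 := by revert i; decide
theorem n02 (i : Fin 3) : i ≠ i + 2 := by revert i; decide
theorem n12 (i : Fin 3) : i + 1 ≠ i + 2 := by revert i; decide
theorem n21 (i : Fin 3) : i + 2 ≠ i + 1 := by revert i; decide
theorem tri (i j : Fin 3) : j = i ∨ j = i + 1 ∨ j = i + 2 := by revert i j; decide

theorem aext {x y : Al a b} (i : Fin 3) (h1 : x.1 i = y.1 i) (h2 : x.1 (i + 1) = y.1 (i + 1))
    (h3 : x.1 (i + 2) = y.1 (i + 2)) (h4 : x.2 i = y.2 i) (h5 : x.2 (i + 1) = y.2 (i + 1))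
    (h6 : x.2 (i + 2) = y.2 (i + 2)) : x = y := by
  refine Prod.ext (funext fun j => ?_) (funext fun j => ?_) <;>
    rcases tri i j with rfl | rfl | rfl <;> assumption

/-- The diagonal idempotents. -/
def E (i : Fin 3) : Al a b := (Pi.single i 1, 0)

/-- The elements with one octonion entry. -/
def O (i : Fin 3) (u : Oc a b) : Al a b := (0, Pi.single i u)

theorem E_fst (i : Fin 3) : (E i : Al a b).1 = Pi.single i 1 := rfl
theorem E_snd (i : Fin 3) : (E i : Al a b).2 = 0 := rfl
theorem O_fst (i : Fin 3) (u : Oc a b) : (O i u).1 = 0 := rfl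
theorem O_snd (i : Fin 3) (u : Oc a b) : (O i u).2 = Pi.single i u := rfl

theorem O_add (i : Fin 3) (u v : Oc a b) : O i (u + v) = O i u + O i v := by
  simp [O, Pi.single_add]

theorem O_smul (i : Fin 3) (t : K) (u : Oc a b) : O i (t • u) = t • O i u := by
  simp [O, Pi.single_smul]

theorem O_zero (i : Fin 3) : O i (0 : Oc a b) = 0 := by
  simp [O]

theorem decomp (x : Al a b) : x = ∑ i, (x.1 i • E i + O i (x.2 i)) := by
  apply aext 0 <;> simp [Fin.sum_univ_three, E, O]

/-- A trilinear form whose restriction to the diagonal is the cubic norm. -/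
def T3 (x y z : Al a b) : K :=
  x.1 0 * y.1 1 * z.1 2 - (x.1 0 * nn c (y.2 0) (z.2 0) + x.1 1 * nn c (y.2 1) (z.2 1) +
    x.1 2 * nn c (y.2 2) (z.2 2)) / 2 + tt c (x.2 0) (y.2 1) (z.2 2)

/-- The polarisation of the cubic norm. -/
def N0 (x y z : Al a b) : K :=
  T3 c x y z + T3 c x z y + T3 c y x z + T3 c y z x + T3 c z x y + T3 c z y x

theorem N0_12 (x y z : Al a b) : N0 c x y z = N0 c y x z := by
  simp only [N0]
  ring

theorem N0_23 (x y z : Al a b) : N0 c x y z = N0 c x z y := by
  simp only [N0]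
  ring

theorem N0_add (x x' y z : Al a b) : N0 c (x + x') y z = N0 c x y z + N0 c x' y z := by
  simp only [N0, T3, Prod.fst_add, Prod.snd_add, Pi.add_apply, nn_add_left, nn_add_right, tt_add1,
    tt_add2, tt_add3]
  ring

theorem N0_smul (t : K) (x y z : Al a b) : N0 c (t • x) y z = t * N0 c x y z := by
  simp only [N0, T3, Prod.smul_fst, Prod.smul_snd, Pi.smul_apply, smul_eq_mul, nn_smul_left,
    nn_smul_right, tt_smul1, tt_smul2, tt_smul3]
  ring

/-- The polarisation as a trilinear map. -/
def N : Al a b →ₗ[K] Al a b →ₗ[K] Al a b →ₗ[K] K :=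
  LinearMap.mk₂ K (fun x y =>
    { toFun := fun z => N0 c x y z
      map_add' := fun z z' => by
        rw [N0_23, N0_12, N0_add, N0_12, N0_23, N0_12 c z', N0_23 c x z']
      map_smul' := fun t z => by
        rw [N0_23, N0_12, N0_smul, N0_12, N0_23]
        rfl })
    (fun x x' y => LinearMap.ext fun z => N0_add c x x' y z)
    (fun t x y => LinearMap.ext fun z => N0_smul c t x y z)
    (fun x y y' => LinearMap.ext fun z => by
      change N0 c x (y + y') z = N0 c x y z + N0 c x y' z
      rw [N0_12, N0_add, N0_12, N0_12 c y'])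
    (fun t x y => LinearMap.ext fun z => by
      change N0 c x (t • y) z = t * N0 c x y z
      rw [N0_12, N0_smul, N0_12])

theorem N_apply (x y z : Al a b) : N c x y z = N0 c x y z := rfl

theorem N_12 (x y z : Al a b) : N c x y z = N c y x z := N0_12 c x y z

theorem N_23 (x y z : Al a b) : N c x y z = N c x z y := N0_23 c x y z

variable [CharZero K]

theorem N_diag (x : Al a b) : N c x x x = 6 * cub c x := by
  simp only [N_apply, N0, T3, cub, nn, tt, Fin.sum_univ_three]
  ring

theorem N_polar (x y z : Al a b) : N c x y z = cub c (x + y + z) - cub c (x + y) - cub c (x + z) -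
    cub c (y + z) + cub c x + cub c y + cub c z := by
  have h1 := N_diag c (x + y + z)
  have h2 := N_diag c (x + y)
  have h3 := N_diag c (x + z)
  have h4 := N_diag c (y + z)
  have h5 := N_diag c x
  have h6 := N_diag c y
  have h7 := N_diag c z
  simp only [map_add, LinearMap.add_apply] at h1 h2 h3 h4
  have e1 := N_12 c x y z
  have e2 := N_23 c x y z
  have e3 := N_23 c y x z
  have e4 := N_12 c x z y
  have e5 := N_12 c y z x
  linear_combination (h1 - h2 - h3 - h4 + h5 + h6 + h7) / 6 + (3 * e1 + 2 * e2 + 2 * e3 + e4 + e5) / 6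

theorem N_E (i : Fin 3) (y z : Al a b) : N c (E i) y z =
    y.1 (i + 1) * z.1 (i + 2) + y.1 (i + 2) * z.1 (i + 1) - nn c (y.2 i) (z.2 i) := by
  have h := nn_comm c (y.2 i) (z.2 i)
  fin_cases i <;>
    simp [N_apply, N0, T3, E, nn_zero_left, nn_zero_right, tt_zero1, tt_zero2, tt_zero3] at h ⊢ <;>
    linear_combination h / 2

theorem N_O (i : Fin 3) (w : Oc a b) (x : Al a b) : N c (O i w) x x =
    2 * tt c w (x.2 (i + 1)) (x.2 (i + 2)) - 2 * x.1 i * nn c w (x.2 i) := by
  have h := nn_comm c w (x.2 i)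
  have h1 := tt_cyc c w (x.2 (i + 1)) (x.2 (i + 2))
  have h2 := tt_cyc c (x.2 (i + 2)) w (x.2 (i + 1))
  fin_cases i <;>
    simp [N_apply, N0, T3, O, nn_zero_left, nn_zero_right, tt_zero1, tt_zero2, tt_zero3]
      at h h1 h2 ⊢
  · linear_combination x.1 0 * h
  · linear_combination x.1 1 * h + 2 * h2
  · linear_combination x.1 2 * h - 2 * h1

/-- The derivations of the cubic form. -/
def Der : Submodule K (Module.End K (Al a b)) where
  carrier := {X | ∀ x y z, N c (X x) y z + N c x (X y) z + N c x y (X z) = 0}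
  zero_mem' := fun x y z => by simp
  add_mem' := fun {X Y} hX hY x y z => by
    simp only [LinearMap.add_apply, map_add]
    linear_combination hX x y z + hY x y z
  smul_mem' := fun t X hX x y z => by
    simp only [LinearMap.smul_apply, map_smul, smul_eq_mul]
    linear_combination t * hX x y z

variable {c}

omit [CharZero K] in
theorem mem_Der {X : Module.End K (Al a b)} :
    X ∈ Der c ↔ ∀ x y z, N c (X x) y z + N c x (X y) z + N c x y (X z) = 0 := Iff.rfl

theorem der_of_cubic {X : Module.End K (Al a b)} (h : ∀ x, N c (X x) x x = 0) : X ∈ Der c := by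
  intro x y z
  have h1 := h (x + y + z)
  have h2 := h (x + y)
  have h3 := h (x + z)
  have h4 := h (y + z)
  simp only [map_add, LinearMap.add_apply] at h1 h2 h3 h4
  have e1 := N_23 c (X x) y z
  have e2 := N_23 c (X y) x z
  have e3 := N_23 c (X z) x y
  have e4 := N_12 c x (X y) z
  have e5 := N_23 c x y (X z)
  have e6 := N_12 c x (X z) y
  linear_combination (h1 - h2 - h3 - h4 + h x + h y + h z) / 2 + (e1 + e2 + e3) / 2 + e4 + e5 + e6

variable (c)

/-- The upper root elements. -/
def U (i : Fin 3) : Oc a b →ₗ[K] Module.End K (Al a b) :=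
  LinearMap.mk₂ K (fun u x => nn c u (x.2 i) • E (i + 1) + O i (x.1 (i + 2) • u) +
      O (i + 2) (oc (om c u (x.2 (i + 1)))))
    (fun u v x => by
      simp only [nn_add_left, om_add_left, oc_add, smul_add, add_smul, O_add]
      abel)
    (fun t u x => by
      simp only [nn_smul_left, om_smul_left, oc_smul, smul_add, O_smul, smul_smul, mul_comm])
    (fun u x y => by
      simp only [Prod.fst_add, Prod.snd_add, Pi.add_apply, nn_add_right, om_add_right, oc_add,
        add_smul, O_add]
      abel)
    (fun t u x => by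
      simp only [Prod.smul_fst, Prod.smul_snd, Pi.smul_apply, smul_eq_mul, nn_smul_right,
        om_smul_right, oc_smul, smul_add, O_smul, smul_smul])

/-- The lower root elements. -/
def L (i : Fin 3) : Oc a b →ₗ[K] Module.End K (Al a b) :=
  LinearMap.mk₂ K (fun u x => nn c u (x.2 i) • E (i + 2) + O i (x.1 (i + 1) • u) +
      O (i + 1) (oc (om c (x.2 (i + 2)) u)))
    (fun u v x => by
      simp only [nn_add_left, om_add_right, oc_add, smul_add, add_smul, O_add]
      abel)
    (fun t u x => by
      simp only [nn_smul_left, om_smul_right, oc_smul, smul_add, O_smul, smul_smul, mul_comm])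
    (fun u x y => by
      simp only [Prod.fst_add, Prod.snd_add, Pi.add_apply, nn_add_right, om_add_left, oc_add,
        add_smul, O_add]
      abel)
    (fun t u x => by
      simp only [Prod.smul_fst, Prod.smul_snd, Pi.smul_apply, smul_eq_mul, nn_smul_right,
        om_smul_left, oc_smul, smul_add, O_smul, smul_smul])

omit [CharZero K] in
theorem U_apply (i : Fin 3) (u : Oc a b) (x : Al a b) : U c i u x =
    nn c u (x.2 i) • E (i + 1) + O i (x.1 (i + 2) • u) + O (i + 2) (oc (om c u (x.2 (i + 1)))) :=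
  rfl

omit [CharZero K] in
theorem L_apply (i : Fin 3) (u : Oc a b) (x : Al a b) : L c i u x =
    nn c u (x.2 i) • E (i + 2) + O i (x.1 (i + 1) • u) + O (i + 1) (oc (om c (x.2 (i + 2)) u)) :=
  rfl

theorem U_der (i : Fin 3) (u : Oc a b) : U c i u ∈ Der c := by
  refine der_of_cubic fun x => ?_
  simp only [U_apply, map_add, map_smul, LinearMap.add_apply, LinearMap.smul_apply, smul_eq_mul,
    N_E, N_O, O_smul, f11, f12, f21, f22, nn_oc_om]
  linear_combination tt_oc_left c u (x.2 i) (x.2 (i + 1))

theorem L_der (i : Fin 3) (u : Oc a b) : L c i u ∈ Der c := by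
  refine der_of_cubic fun x => ?_
  simp only [L_apply, map_add, map_smul, LinearMap.add_apply, LinearMap.smul_apply, smul_eq_mul,
    N_E, N_O, O_smul, f11, f12, f21, f22, nn_oc_om]
  linear_combination tt_oc_right c u (x.2 i) (x.2 (i + 2)) -
    2 * x.1 (i + 1) * tt_cyc c (x.2 (i + 2)) u (x.2 (i + 1))

end Vale.Agent.P011Z.E6
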