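import Vale.Agent.P011Z.ModE6.Lie
import Vale.Agent.P011Z.SysF

/-!
Coordinates on the Albert algebra, and tensors.
-/

open Matrix Module

namespace Vale.Agent.P011Z.E6

open Vale.Agent.P011.H900

variable {K : Type} [Field K] {a b : K}

/-- The indices of the coordinates. -/
abbrev Ix : Type := Fin 3 ⊕ Fin 3 × Fin 8

/-- The coordinates of an octonion. -/
def vo (x : Oc a b) : Fin 8 → K :=
  ![x.1.re, x.1.imI, x.1.imJ, x.1.imK, x.2.re, x.2.imI, x.2.imJ, x.2.imK]

/-- The octonion with given coordinates. -/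
def ov (v : Fin 8 → K) : Oc a b := (⟨v 0, v 1, v 2, v 3⟩, ⟨v 4, v 5, v 6, v 7⟩)

variable (a b) in
/-- The coordinates. -/
def co : Al a b ≃ₗ[K] (Ix → K) where
  toFun x := Sum.elim x.1 fun p => vo (x.2 p.1) p.2
  invFun v := (fun i => v (Sum.inl i), fun i => ov fun k => v (Sum.inr (i, k)))
  map_add' x y := by
    funext j
    rcases j with i | ⟨i, k⟩
    · rfl
    · fin_cases k <;> rfl
  map_smul' t x := by
    funext j
    rcases j with i | ⟨i, k⟩
    · rfl
    · fin_cases k <;> rfl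
  left_inv x := rfl
  right_inv v := by
    funext j
    rcases j with i | ⟨i, k⟩
    · rfl
    · fin_cases k <;> rfl

variable (a b) in
/-- The matrix of an endomorphism. -/
noncomputable def mat : End K (Al a b) ≃ₐ[K] Matrix Ix Ix K :=
  LinearMap.toMatrixAlgEquiv (Basis.ofEquivFun (co a b))

theorem mat_mulVec (X : End K (Al a b)) (x : Al a b) :
    mat a b X *ᵥ co a b x = co a b (X x) := by
  have h := LinearMap.toMatrix_mulVec_repr (Basis.ofEquivFun (co a b)) (Basis.ofEquivFun (co a b))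
    X x
  have e : ∀ y, ⇑((Basis.ofEquivFun (co a b)).repr y) = co a b y := fun y =>
    funext fun j => Basis.ofEquivFun_repr_apply _ y j
  rw [e, e] at h
  exact h

theorem co_mat (X : End K (Al a b)) (v : Ix → K) :
    (co a b).symm (mat a b X *ᵥ v) = X ((co a b).symm v) := by
  rw [LinearEquiv.symm_apply_eq, ← mat_mulVec, LinearEquiv.apply_symm_apply]

theorem co_mulVec (M : Matrix Ix Ix K) (v : Ix → K) :
    (co a b).symm (M *ᵥ v) = (mat a b).symm M ((co a b).symm v) := by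
  rw [← co_mat, AlgEquiv.apply_symm_apply]

variable (a b) in
/-- The basis vectors. -/
def bas (j : Ix) : Al a b := (co a b).symm (Pi.single j 1)

theorem co_symm_eq (v : Ix → K) : (co a b).symm v = ∑ j, v j • bas a b j := by
  simp only [bas, ← map_smul, ← map_sum]
  congr 1
  funext j
  simp [Pi.single_apply]

theorem exp2 (f : Al a b →ₗ[K] Al a b →ₗ[K] K) (x : Fin 2 → Ix → K) :
    ∑ j : Fin 2 → Ix, f (bas a b (j 0)) (bas a b (j 1)) * ∏ r, x r (j r) =
      f ((co a b).symm (x 0)) ((co a b).symm (x 1)) := by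
  rw [← (piFinTwoEquiv fun _ => Ix).symm.sum_comp, Fintype.sum_prod_type, co_symm_eq, co_symm_eq]
  simp only [map_sum, LinearMap.sum_apply, map_smul, LinearMap.smul_apply, smul_eq_mul,
    Fin.prod_univ_two, Finset.mul_sum]
  rw [Finset.sum_comm]
  refine Finset.sum_congr rfl fun i _ => Finset.sum_congr rfl fun j _ => ?_
  simp [piFinTwoEquiv]
  ring

/-- Triples. -/
def eq3 (m : Type) : m × m × m ≃ (Fin 3 → m) where
  toFun p := ![p.1, p.2.1, p.2.2]
  invFun j := (j 0, j 1, j 2)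
  left_inv _ := rfl
  right_inv j := by
    funext r
    fin_cases r <;> rfl

theorem exp3 (f : Al a b →ₗ[K] Al a b →ₗ[K] Al a b →ₗ[K] K) (x : Fin 3 → Ix → K) :
    ∑ j : Fin 3 → Ix, f (bas a b (j 0)) (bas a b (j 1)) (bas a b (j 2)) * ∏ r, x r (j r) =
      f ((co a b).symm (x 0)) ((co a b).symm (x 1)) ((co a b).symm (x 2)) := by
  rw [← (eq3 Ix).sum_comp, Fintype.sum_prod_type, co_symm_eq (x 0), map_sum, LinearMap.sum_apply,
    LinearMap.sum_apply]
  refine Finset.sum_congr rfl fun i _ => ?_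
  rw [Fintype.sum_prod_type, co_symm_eq (x 1), map_sum, LinearMap.sum_apply]
  refine Finset.sum_congr rfl fun j _ => ?_
  rw [co_symm_eq (x 2), map_sum]
  refine Finset.sum_congr rfl fun k _ => ?_
  change f (bas a b i) (bas a b j) (bas a b k) * ∏ r, x r (![i, j, k] r) = _
  simp [Fin.prod_univ_three]
  ring

theorem tri_zero (f : Al a b →ₗ[K] Al a b →ₗ[K] Al a b →ₗ[K] K)
    (h : ∀ i j k, f (bas a b i) (bas a b j) (bas a b k) = 0) (x y z : Al a b) : f x y z = 0 := by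
  have h1 := exp3 f ![co a b x, co a b y, co a b z]
  simpa [h] using h1.symm

section map

variable {Ω : Type} [Field Ω] {a' b' : Ω}

/-- A homomorphism of fields applied to the coefficients. -/
def mpA (τ : K →+* Ω) (a' b' : Ω) (x : Al a b) : Al a' b' :=
  (fun i => τ (x.1 i), fun i => mp τ a' b' (x.2 i))

variable (τ : K →+* Ω)

theorem mpA_fst (x : Al a b) (i : Fin 3) : (mpA τ a' b' x).1 i = τ (x.1 i) := rfl

theorem mpA_snd (x : Al a b) (i : Fin 3) : (mpA τ a' b' x).2 i = mp τ a' b' (x.2 i) := rfl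

theorem mpA_id (x : Al a b) : mpA (RingHom.id K) a b x = x := rfl

theorem co_symm_comp (v : Ix → K) : (co a' b').symm (τ ∘ v) = mpA τ a' b' ((co a b).symm v) := rfl

theorem mpA_bas (j : Ix) : mpA τ a' b' (bas a b j) = bas a' b' j := by
  rw [bas, bas, ← co_symm_comp]
  congr 1
  funext k
  simp [Pi.single_apply]

theorem mpA_add (x y : Al a b) : mpA τ a' b' (x + y) = mpA τ a' b' x + mpA τ a' b' y := by
  apply aext 0 <;> simp [mpA_fst, mpA_snd, mp_add]

theorem mpA_smul (t : K) (x : Al a b) : mpA τ a' b' (t • x) = τ t • mpA τ a' b' x := by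
  apply aext 0 <;> simp [mpA_fst, mpA_snd, mp_smul]

theorem mpA_E (i : Fin 3) : mpA τ a' b' (E i : Al a b) = E i := by
  apply aext i <;> simp [mpA_fst, mpA_snd, E_fst, E_snd, mp_zero]

theorem mpA_O (i : Fin 3) (u : Oc a b) : mpA τ a' b' (O i u) = O i (mp τ a' b' u) := by
  apply aext i <;> simp [mpA_fst, mpA_snd, O_fst, O_snd, mp_zero]

theorem map_mat (M : Matrix Ix Ix K) (x : Al a b) :
    (mat a' b').symm (M.map τ) (mpA τ a' b' x) = mpA τ a' b' ((mat a b).symm M x) := by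
  obtain ⟨v, rfl⟩ := (co a b).symm.surjective x
  rw [← co_symm_comp, ← co_mulVec, ← co_mulVec, ← co_symm_comp]
  congr 1
  funext i
  exact (RingHom.map_mulVec τ M v i).symm

theorem mat_map {X : End K (Al a b)} {X' : End Ω (Al a' b')}
    (h : ∀ x, X' (mpA τ a' b' x) = mpA τ a' b' (X x)) : (mat a b X).map τ = mat a' b' X' := by
  rw [← AlgEquiv.symm_apply_eq]
  refine LinearMap.ext fun x => ?_
  obtain ⟨v, rfl⟩ := (co a' b').symm.surjective x
  rw [co_symm_eq, map_sum, map_sum]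
  refine Finset.sum_congr rfl fun j _ => ?_
  rw [map_smul, map_smul, ← mpA_bas (a := a) (b := b) τ, map_mat, h, AlgEquiv.symm_apply_apply]

variable {τ} {c : K} {c' : Ω} (ha : τ a = a') (hb : τ b = b') (hc : τ c = c')

include ha hb hc

theorem N_mpA (x y z : Al a b) :
    N c' (mpA τ a' b' x) (mpA τ a' b' y) (mpA τ a' b' z) = τ (N c x y z) := by
  simp only [N_apply, N0, T3, mpA_fst, mpA_snd, nn_mp ha hb hc, tt_mp ha hb hc, map_add, map_sub,
    map_mul, map_div₀, map_ofNat]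

theorem U_mpA (i : Fin 3) (u : Oc a b) (x : Al a b) :
    U c' i (mp τ a' b' u) (mpA τ a' b' x) = mpA τ a' b' (U c i u x) := by
  simp only [U_apply, mpA_fst, mpA_snd, nn_mp ha hb hc, mpA_add, mpA_smul, mpA_E, mpA_O, mp_smul,
    mp_oc, mp_om ha hb hc]

theorem L_mpA (i : Fin 3) (u : Oc a b) (x : Al a b) :
    L c' i (mp τ a' b' u) (mpA τ a' b' x) = mpA τ a' b' (L c i u x) := by
  simp only [L_apply, mpA_fst, mpA_snd, nn_mp ha hb hc, mpA_add, mpA_smul, mpA_E, mpA_O, mp_smul,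
    mp_oc, mp_om ha hb hc]

theorem der_map {M : Matrix Ix Ix K} (h : (mat a b).symm M ∈ Der c) :
    (mat a' b').symm (M.map τ) ∈ Der c' := by
  intro x y z
  refine tri_zero ((N c').comp ((mat a' b').symm (M.map τ)) +
    (N c').compl₂ ((mat a' b').symm (M.map τ)) +
    (N c').compr₂ (LinearMap.lcomp Ω Ω ((mat a' b').symm (M.map τ)))) (fun i j k => ?_) x y z
  have h1 := congrArg τ (h (bas a b i) (bas a b j) (bas a b k))
  rw [map_add, map_add, map_zero, ← N_mpA ha hb hc, ← N_mpA ha hb hc, ← N_mpA ha hb hc,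
    ← map_mat, ← map_mat, ← map_mat, mpA_bas, mpA_bas, mpA_bas] at h1
  exact h1

end map

section tensor

/-- The tensor of a sesquilinear form. -/
abbrev t2 (σ σ' : K →+* K) (f : Al a b →ₗ[K] Al a b →ₗ[K] K) : TnF K Ix :=
  ⟨2, ![σ, σ'], fun j => f (bas a b (j 0)) (bas a b (j 1))⟩

/-- The tensor of a trilinear form. -/
abbrev t3 (f : Al a b →ₗ[K] Al a b →ₗ[K] Al a b →ₗ[K] K) : TnF K Ix :=
  ⟨3, fun _ => RingHom.id K, fun j => f (bas a b (j 0)) (bas a b (j 1)) (bas a b (j 2))⟩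

theorem ev_t2 (σ σ' : K →+* K) (f : Al a b →ₗ[K] Al a b →ₗ[K] K) (x : Fin 2 → Ix → K) :
    (t2 σ σ' f).ev x = f (mpA σ a b ((co a b).symm (x 0))) (mpA σ' a b ((co a b).symm (x 1))) :=
  exp2 f fun r => (![σ, σ'] r : K →+* K) ∘ x r

theorem ev_t3 (f : Al a b →ₗ[K] Al a b →ₗ[K] Al a b →ₗ[K] K) (x : Fin 3 → Ix → K) :
    (t3 f).ev x = f ((co a b).symm (x 0)) ((co a b).symm (x 1)) ((co a b).symm (x 2)) :=
  exp3 f x

variable {Ω : Type} [Field Ω] {a' b' : Ω} (τ : K →+* Ω)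

theorem evE_t2 (σ σ' : K →+* K) (f : Al a b →ₗ[K] Al a b →ₗ[K] K)
    (f' : Al a' b' →ₗ[Ω] Al a' b' →ₗ[Ω] Ω)
    (h : ∀ u v, f' (mpA τ a' b' u) (mpA τ a' b' v) = τ (f u v)) (x : Fin 2 → Ix → Ω) :
    (t2 σ σ' f).evE τ x = f' ((co a' b').symm (x 0)) ((co a' b').symm (x 1)) := by
  rw [← exp2]
  refine Finset.sum_congr rfl fun j _ => ?_
  rw [← mpA_bas (a := a) (b := b) τ, ← mpA_bas (a := a) (b := b) τ, h]

theorem evE_t3 (f : Al a b →ₗ[K] Al a b →ₗ[K] Al a b →ₗ[K] K)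
    (f' : Al a' b' →ₗ[Ω] Al a' b' →ₗ[Ω] Al a' b' →ₗ[Ω] Ω)
    (h : ∀ u v w, f' (mpA τ a' b' u) (mpA τ a' b' v) (mpA τ a' b' w) = τ (f u v w))
    (x : Fin 3 → Ix → Ω) : (t3 f).evE τ x =
      f' ((co a' b').symm (x 0)) ((co a' b').symm (x 1)) ((co a' b').symm (x 2)) := by
  rw [← exp3]
  refine Finset.sum_congr rfl fun j _ => ?_
  rw [← mpA_bas (a := a) (b := b) τ, ← mpA_bas (a := a) (b := b) τ, ← mpA_bas (a := a) (b := b) τ,
    h]

end tensor

end Vale.Agent.P011Z.E6
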