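import Vale.Agent.P011Z.ModE6.Coord

/-!
The hermitian form and the cyclic shift on the Albert algebra.
-/

open Matrix Module

namespace Vale.Agent.P011Z.E6

open Vale.Agent.P011.H900

variable {K : Type} [Field K] {a b : K} (c : K)

/-- The trace form with weights. -/
def hb (g : Fin 3 → K) : Al a b →ₗ[K] Al a b →ₗ[K] K :=
  LinearMap.mk₂ K (fun x y => ∑ i, (g i ^ 2 * x.1 i * y.1 i +
      g (i + 1) * g (i + 2) * nn c (x.2 i) (y.2 i)))
    (fun x x' y => by
      simp only [Prod.fst_add, Prod.snd_add, Pi.add_apply, nn_add_left, Fin.sum_univ_three]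
      ring)
    (fun t x y => by
      simp only [Prod.smul_fst, Prod.smul_snd, Pi.smul_apply, smul_eq_mul, nn_smul_left,
        Fin.sum_univ_three]
      ring)
    (fun x y y' => by
      simp only [Prod.fst_add, Prod.snd_add, Pi.add_apply, nn_add_right, Fin.sum_univ_three]
      ring)
    (fun t x y => by
      simp only [Prod.smul_fst, Prod.smul_snd, Pi.smul_apply, smul_eq_mul, nn_smul_right,
        Fin.sum_univ_three]
      ring)

theorem hb_apply (g : Fin 3 → K) (x y : Al a b) : hb c g x y =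
    ∑ i, (g i ^ 2 * x.1 i * y.1 i + g (i + 1) * g (i + 2) * nn c (x.2 i) (y.2 i)) := rfl

theorem her_eq (σ : K →+* K) (g : Fin 3 → K) (x y : Al a b) :
    her c σ g x y = hb c g x (mpA σ a b y) := rfl

theorem hb_comm (g : Fin 3 → K) (x y : Al a b) : hb c g x y = hb c g y x := by
  simp only [hb_apply, Fin.sum_univ_three, nn_comm c (x.2 _)]
  ring

theorem hb_E (g : Fin 3 → K) (i : Fin 3) (y : Al a b) : hb c g (E i) y = g i ^ 2 * y.1 i := by
  fin_cases i <;> simp [hb_apply, Fin.sum_univ_three, E_fst, E_snd, nn_zero_left]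

theorem hb_O (g : Fin 3 → K) (i : Fin 3) (u : Oc a b) (y : Al a b) :
    hb c g (O i u) y = g (i + 1) * g (i + 2) * nn c u (y.2 i) := by
  fin_cases i <;> simp [hb_apply, Fin.sum_univ_three, O_fst, O_snd, nn_zero_left]

theorem hb_U_L (g : Fin 3 → K) (i : Fin 3) (u : Oc a b) (x y : Al a b) :
    g (i + 2) * hb c g (U c i u x) y = g (i + 1) * hb c g x (L c i u y) := by
  rw [hb_comm c g x]
  simp only [U_apply, L_apply, map_add, map_smul, LinearMap.add_apply, LinearMap.smul_apply,
    smul_eq_mul, hb_E, hb_O, O_smul, f11, f12, f21, f22, nn_oc_om]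
  rw [tt_cyc c (y.2 (i + 2))]
  ring

/-- The linear cyclic shift. -/
def pl (e : K) : End K (Al a b) where
  toFun x := (![e⁻¹ * x.1 2, e * x.1 0, e * x.1 1], ![e • x.2 2, x.2 0, x.2 1])
  map_add' x y := by
    apply aext 0 <;> simp [mul_add]
  map_smul' t x := by
    apply aext 0 <;> simp [mul_left_comm, smul_comm e t]

theorem pl_apply (e : K) (x : Al a b) :
    pl e x = (![e⁻¹ * x.1 2, e * x.1 0, e * x.1 1], ![e • x.2 2, x.2 0, x.2 1]) := rfl

theorem ph_eq (σ : K →+* K) (e : K) (x : Al a b) : ph σ e x = pl e (mpA σ a b x) := rfl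

variable {e : K}

theorem pl_U0 (he : e ≠ 0) (u : Oc a b) (x : Al a b) :
    pl e (U c 0 u x) = U c 1 (e • u) (pl e x) := by
  apply aext 0 <;> simp [pl_apply, U_apply, E_fst, E_snd, O_fst, O_snd, smul_smul, he]

theorem pl_U1 (he : e ≠ 0) (u : Oc a b) (x : Al a b) :
    pl e (U c 1 (e • u) x) = U c 2 u (pl e x) := by
  apply aext 0 <;> simp [pl_apply, U_apply, E_fst, E_snd, O_fst, O_snd, smul_smul, he,
    om_smul_right, oc_smul, mul_comm]

theorem pl_U2 (u : Oc a b) (x : Al a b) : pl e (U c 2 u x) = U c 0 u (pl e x) := by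
  apply aext 0 <;> simp [pl_apply, U_apply, E_fst, E_snd, O_fst, O_snd, smul_smul, nn_smul_right]

theorem pl_L0 (he : e ≠ 0) (u : Oc a b) (x : Al a b) :
    pl e (L c 0 u x) = L c 1 (e⁻¹ • u) (pl e x) := by
  apply aext 0 <;> simp [pl_apply, L_apply, E_fst, E_snd, O_fst, O_snd, smul_smul, he,
    om_smul_left, oc_smul, mul_comm, ← mul_assoc]

theorem pl_L1 (he : e ≠ 0) (u : Oc a b) (x : Al a b) :
    pl e (L c 1 (e⁻¹ • u) x) = L c 2 u (pl e x) := by
  apply aext 0 <;> simp [pl_apply, L_apply, E_fst, E_snd, O_fst, O_snd, smul_smul, he,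
    mul_comm, ← mul_assoc]

theorem pl_L2 (u : Oc a b) (x : Al a b) : pl e (L c 2 u x) = L c 0 u (pl e x) := by
  apply aext 0 <;> simp [pl_apply, L_apply, E_fst, E_snd, O_fst, O_snd, smul_smul, nn_smul_right]

variable {c}

theorem hb_nondeg [CharZero K] (ha : a ≠ 0) (hb0 : b ≠ 0) (hc : c ≠ 0) {g : Fin 3 → K}
    (hg : ∀ i, g i ≠ 0) {y : Al a b} (h : ∀ x, hb c g x y = 0) : y = 0 := by
  refine Prod.ext (funext fun i => ?_) (funext fun i => eq_zero_of_nn ha hb0 hc fun u => ?_)
  · simpa [hb_E, hg] using h (E i)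
  · simpa [hb_O, hg] using h (O i u)

section map

variable {Ω : Type} [Field Ω] {a' b' c' : Ω} {τ : K →+* Ω}

theorem hb_mpA (ha : τ a = a') (hb0 : τ b = b') (hc : τ c = c') (g : Fin 3 → K) (x y : Al a b) :
    hb c' (fun i => τ (g i)) (mpA τ a' b' x) (mpA τ a' b' y) = τ (hb c g x y) := by
  simp only [hb_apply, mpA_fst, mpA_snd, nn_mp ha hb0 hc, map_sum, map_add, map_mul, map_pow]

theorem pl_mpA (e : K) (x : Al a b) : pl (τ e) (mpA τ a' b' x) = mpA τ a' b' (pl e x) := by
  apply aext 0 <;> simp [pl_apply, mpA_fst, mpA_snd, mp_smul]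

end map

section act

/-- An endomorphism of the octonions acts on the three entries. -/
def act0 (t : K) (f : End K (Oc a b)) : End K (Al a b) where
  toFun x := (t • x.1, fun i => f (x.2 i))
  map_add' x y := by
    apply aext 0 <;> simp [mul_add]
  map_smul' t x := by
    apply aext 0 <;> simp [mul_left_comm]

theorem act0_fst (t : K) (f : End K (Oc a b)) (x : Al a b) (i : Fin 3) :
    (act0 t f x).1 i = t * x.1 i := rfl

theorem act0_snd (t : K) (f : End K (Oc a b)) (x : Al a b) (i : Fin 3) :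
    (act0 t f x).2 i = f (x.2 i) := rfl

/-- The action of a group. -/
def act {G : Type} [Monoid G] (φ : G →* End K (Oc a b)) : G →* End K (Al a b) where
  toFun g := act0 1 (φ g)
  map_one' := LinearMap.ext fun x => by
    apply aext 0 <;> simp [act0_fst, act0_snd]
  map_mul' g h := LinearMap.ext fun x => by
    apply aext 0 <;> simp [act0_fst, act0_snd]

theorem act_apply {G : Type} [Monoid G] (φ : G →* End K (Oc a b)) (g : G) :
    act φ g = act0 1 (φ g) := rfl

variable {f : End K (Oc a b)} (h1 : ∀ x y, f (om c x y) = om c (f x) (f y))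
  (h2 : ∀ x, f (oc x) = oc (f x)) (h3 : ∀ x, re (f x) = re x)

include h1 h2 h3

theorem nn_act (x y : Oc a b) : nn c (f x) (f y) = nn c x y := by
  rw [nn, nn, ← h2, ← h1, h3]

omit h2 in
theorem tt_act (x y z : Oc a b) : tt c (f x) (f y) (f z) = tt c x y z := by
  rw [tt, tt, ← h1, ← h1, h3]

theorem N_act (x y z : Al a b) : N c (act0 1 f x) (act0 1 f y) (act0 1 f z) = N c x y z := by
  simp only [N_apply, N0, T3, act0_fst, act0_snd, one_mul, nn_act h1 h2 h3, tt_act h1 h3]

theorem hb_act (g : Fin 3 → K) (x y : Al a b) : hb c g (act0 1 f x) (act0 1 f y) = hb c g x y := by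
  simp only [hb_apply, act0_fst, act0_snd, one_mul, nn_act h1 h2 h3]

omit h1 h2 h3 in
theorem pl_act (e : K) (x : Al a b) : pl e (act0 1 f x) = act0 1 f (pl e x) := by
  apply aext 0 <;> simp [pl_apply, act0_fst, act0_snd]

end act

end Vale.Agent.P011Z.E6
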