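import Vale.Agent.P011Z.ModE6.Alb

/-!
Ideals of the Lie algebra of the derivations of the cubic form.
-/

namespace Vale.Agent.P011Z.E6

open Vale.Agent.P011.H900

variable {K : Type} [Field K] {a b : K} (c : K)

/-- The diagonal elements. -/
def H (l : Fin 3 → K) : Module.End K (Al a b) where
  toFun x := (fun i => 2 * l i * x.1 i, fun i => (l (i + 1) + l (i + 2)) • x.2 i)
  map_add' x y := by
    apply aext 0 <;> simp [mul_add]
  map_smul' t x := by
    apply aext 0 <;> simp [smul_smul, mul_comm, mul_left_comm]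

theorem H_fst (l : Fin 3 → K) (x : Al a b) (i : Fin 3) : (H l x).1 i = 2 * l i * x.1 i := rfl

theorem H_snd (l : Fin 3 → K) (x : Al a b) (i : Fin 3) :
    (H l x).2 i = (l (i + 1) + l (i + 2)) • x.2 i := rfl

theorem H_E (l : Fin 3 → K) (i : Fin 3) : H l (E i : Al a b) = (2 * l i) • E i := by
  apply aext i <;> simp [H_fst, H_snd, E]

theorem H_O (l : Fin 3 → K) (i : Fin 3) (u : Oc a b) :
    H l (O i u) = (l (i + 1) + l (i + 2)) • O i u := by
  apply aext i <;> simp [H_fst, H_snd, O]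

theorem H_U (l : Fin 3 → K) (i : Fin 3) (u : Oc a b) :
    H l * U c i u - U c i u * H l = (l (i + 1) - l (i + 2)) • U c i u := by
  refine LinearMap.ext fun x => ?_
  simp only [LinearMap.sub_apply, Module.End.mul_apply, LinearMap.smul_apply, U_apply, map_add,
    map_smul, H_E, H_O, H_fst, H_snd, O_smul, nn_smul_right, om_smul_right, oc_smul, f11, f12, f21,
    f22]
  module

theorem H_L (l : Fin 3 → K) (i : Fin 3) (u : Oc a b) :
    H l * L c i u - L c i u * H l = (l (i + 2) - l (i + 1)) • L c i u := by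
  refine LinearMap.ext fun x => ?_
  simp only [LinearMap.sub_apply, Module.End.mul_apply, LinearMap.smul_apply, L_apply, map_add,
    map_smul, H_E, H_O, H_fst, H_snd, O_smul, nn_smul_right, om_smul_left, oc_smul, f11, f12, f21,
    f22]
  module

theorem U_E0 (i : Fin 3) (u : Oc a b) : U c i u (E i) = 0 := by
  simp [U_apply, E_fst, E_snd, nn_zero_right, om_zero_right, oc_zero, O_zero]

theorem U_E1 (i : Fin 3) (u : Oc a b) : U c i u (E (i + 1)) = 0 := by
  simp [U_apply, E_fst, E_snd, nn_zero_right, om_zero_right, oc_zero, O_zero]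

theorem U_E2 (i : Fin 3) (u : Oc a b) : U c i u (E (i + 2)) = O i u := by
  simp [U_apply, E_fst, E_snd, nn_zero_right, om_zero_right, oc_zero, O_zero]

theorem L_E0 (i : Fin 3) (u : Oc a b) : L c i u (E i) = 0 := by
  simp [L_apply, E_fst, E_snd, nn_zero_right, om_zero_left, oc_zero, O_zero]

theorem L_E1 (i : Fin 3) (u : Oc a b) : L c i u (E (i + 1)) = O i u := by
  simp [L_apply, E_fst, E_snd, nn_zero_right, om_zero_left, oc_zero, O_zero]

theorem L_E2 (i : Fin 3) (u : Oc a b) : L c i u (E (i + 2)) = 0 := by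
  simp [L_apply, E_fst, E_snd, nn_zero_right, om_zero_left, oc_zero, O_zero]

theorem U_O0 (i : Fin 3) (u v : Oc a b) : U c i u (O i v) = nn c u v • E (i + 1) := by
  simp [U_apply, O_fst, O_snd, om_zero_right, oc_zero, O_zero]

theorem U_O1 (i : Fin 3) (u v : Oc a b) : U c i u (O (i + 1) v) = O (i + 2) (oc (om c u v)) := by
  simp [U_apply, O_fst, O_snd, nn_zero_right, O_zero]

theorem U_O2 (i : Fin 3) (u v : Oc a b) : U c i u (O (i + 2) v) = 0 := by
  simp [U_apply, O_fst, O_snd, nn_zero_right, om_zero_right, oc_zero, O_zero]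

theorem L_O0 (i : Fin 3) (u v : Oc a b) : L c i u (O i v) = nn c u v • E (i + 2) := by
  simp [L_apply, O_fst, O_snd, om_zero_left, oc_zero, O_zero]

theorem L_O1 (i : Fin 3) (u v : Oc a b) : L c i u (O (i + 1) v) = 0 := by
  simp [L_apply, O_fst, O_snd, nn_zero_right, om_zero_left, oc_zero, O_zero]

theorem L_O2 (i : Fin 3) (u v : Oc a b) : L c i u (O (i + 2) v) = O (i + 1) (oc (om c v u)) := by
  simp [L_apply, O_fst, O_snd, nn_zero_right, O_zero]

theorem U_L_one (i : Fin 3) : U c i o1 * L c i o1 - L c i o1 * U c i o1 =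
    (H (Pi.single (i + 1) 1 - Pi.single (i + 2) 1) : Module.End K (Al a b)) := by
  refine LinearMap.ext fun x => ?_
  rw [LinearMap.sub_apply, Module.End.mul_apply, Module.End.mul_apply, L_apply c i o1 x,
    U_apply c i o1 x]
  simp only [map_add, map_smul, U_E2, L_E1, U_O0, U_O1, L_O0, L_O2, O_smul, nn_one, om_one_left,
    om_one_right, oc_oc]
  apply aext i <;> simp [H_fst, H_snd, E_fst, E_snd, O_fst, O_snd, f11, f12,
    f21, f22] <;> ring

theorem H_add (l l' : Fin 3 → K) : (H (l + l') : Module.End K (Al a b)) = H l + H l' := by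
  refine LinearMap.ext fun x => ?_
  apply aext 0 <;> simp [H_fst, H_snd] <;> first | module | ring

theorem H_smul (t : K) (l : Fin 3 → K) : (H (t • l) : Module.End K (Al a b)) = t • H l := by
  refine LinearMap.ext fun x => ?_
  apply aext 0 <;> simp [H_fst, H_snd] <;> first | module | ring

variable [CharZero K] {c} (ha : a ≠ 0) (hb : b ≠ 0) (hc : c ≠ 0)

include ha hb hc

theorem eq_zero_of_nn {x : Oc a b} (h : ∀ u, nn c u x = 0) : x = 0 := by
  by_contra h0
  obtain ⟨u, hu⟩ := exists_nn ha hb hc h0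
  exact hu (h u)

/-- A derivation without root components preserves the six blocks. -/
theorem blk {X : Module.End K (Al a b)} (hX : X ∈ Der c) (hu : ∀ i, (X (E (i + 2))).2 i = 0)
    (hl : ∀ i, (X (E (i + 1))).2 i = 0) :
    (∀ j, X (E j) = (X (E j)).1 j • E j) ∧ ∀ j y, X (O j y) = O j ((X (O j y)).2 j) := by
  have hE : ∀ j, X (E j) = (X (E j)).1 j • E j := by
    intro j
    have h : ∀ y, N c (E j) (X (E j)) y = 0 := by
      intro y
      have h1 := hX (E j) (E j) y
      rw [N_12 c (X (E j)), N_E c j (E j)] at h1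
      simp only [E_fst, E_snd, Pi.single_eq_of_ne (n10 j), Pi.single_eq_of_ne (n20 j),
        Pi.zero_apply, nn_zero_left] at h1
      linear_combination h1 / 2
    have h1 := h (E (j + 1))
    have h2 := h (E (j + 2))
    have h3 : (X (E j)).2 j = 0 := eq_zero_of_nn ha hb hc fun u => by
      have h4 := h (O j u)
      rw [N_E] at h4
      simp only [O_fst, O_snd, Pi.zero_apply, Pi.single_eq_same] at h4
      rw [nn_comm]
      linear_combination -h4
    have h5 := hu (j + 1)
    have h6 := hl (j + 2)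
    rw [f12] at h5
    rw [f21] at h6
    rw [N_E] at h1 h2
    simp [E_fst, E_snd, nn_zero_right] at h1 h2
    apply aext j <;> simp [E_fst, E_snd, h1, h2, h3, h5, h6]
  refine ⟨hE, fun j y => ?_⟩
  have hd : ∀ i, (X (O j y)).1 i = 0 := by
    intro i
    have h1 := hX (E (i + 1)) (E (i + 2)) (O j y)
    rw [hE (i + 1), hE (i + 2)] at h1
    simp only [map_smul, LinearMap.smul_apply, smul_eq_mul, N_E, E_fst, E_snd, O_fst, f11, f12,
      Pi.zero_apply, nn_zero_left, Pi.single_eq_same, Pi.single_eq_of_ne (n02 i)] at h1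
    linear_combination h1
  have ho : ∀ i, i ≠ j → (X (O j y)).2 i = 0 := by
    intro i hi
    refine eq_zero_of_nn ha hb hc fun u => ?_
    have h1 := hX (E i) (O j y) (O i u)
    rw [hE i] at h1
    simp only [map_smul, LinearMap.smul_apply, smul_eq_mul, N_E, O_fst, O_snd,
      Pi.zero_apply, Pi.single_eq_same, Pi.single_eq_of_ne hi, nn_zero_left] at h1
    rw [nn_comm]
    linear_combination -h1
  apply aext j <;> simp [O_fst, O_snd, hd, ho _ (n10 j), ho _ (n20 j)]

theorem H_blk {X : Module.End K (Al a b)} (hX : X ∈ Der c) (hu : ∀ i, (X (E (i + 2))).2 i = 0)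
    (hl : ∀ i, (X (E (i + 1))).2 i = 0) (l : Fin 3 → K) : H l * X - X * H l = 0 := by
  obtain ⟨h1, h2⟩ := blk ha hb hc hX hu hl
  refine LinearMap.ext fun x => ?_
  rw [LinearMap.zero_apply, decomp x, map_sum]
  refine Finset.sum_eq_zero fun i _ => ?_
  simp only [map_add, map_smul, LinearMap.sub_apply, Module.End.mul_apply, H_E, H_O]
  rw [h1 i, h2 i, map_smul, H_E, H_O]
  module

omit [CharZero K] ha hb hc in
theorem mem_of_sum_eig {W ι : Type} [AddCommGroup W] [Module K W] [DecidableEq ι] (s : Finset ι)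
    (I : Submodule K W) (A : W →ₗ[K] W) (hI : ∀ x ∈ I, A x ∈ I) (μ : ι → K)
    (hμ : Function.Injective μ) (X : ι → W) (hX : ∀ k, A (X k) = μ k • X k)
    (h : ∑ k ∈ s, X k ∈ I) : ∀ k ∈ s, X k ∈ I := by
  induction s using Finset.induction_on generalizing X with
  | empty => simp
  | insert j s hj ih =>
    have h1 : ∑ k ∈ s, (μ k - μ j) • X k ∈ I := by
      have h2 := I.sub_mem (hI _ h) (I.smul_mem (μ j) h)
      rw [map_sum, Finset.smul_sum, ← Finset.sum_sub_distrib, Finset.sum_insert hj, hX, sub_self,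
        zero_add] at h2
      simpa only [hX, sub_smul] using h2
    have h3 : ∀ k ∈ s, X k ∈ I := by
      intro k hk
      have h4 := ih (fun k => (μ k - μ j) • X k) (fun k => by rw [map_smul, hX, smul_comm]) h1 k hk
      have h5 : μ k - μ j ≠ 0 := sub_ne_zero.2 fun h => hj (hμ h ▸ hk)
      have h6 := I.smul_mem (μ k - μ j)⁻¹ h4
      rwa [smul_smul, inv_mul_cancel₀ h5, one_smul] at h6
    intro k hk
    rcases Finset.mem_insert.1 hk with rfl | hk
    · rw [Finset.sum_insert hj] at h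
      simpa using I.sub_mem h (I.sum_mem h3)
    · exact h3 k hk

omit [CharZero K] ha hb hc in
variable (c) in
/-- A space of derivations which is stable under the brackets with the root elements. -/
structure Idl (I : Submodule K (Module.End K (Al a b))) : Prop where
  le : I ≤ Der c
  bU : ∀ i u, ∀ X ∈ I, U c i u * X - X * U c i u ∈ I
  bL : ∀ i u, ∀ X ∈ I, L c i u * X - X * L c i u ∈ I

omit [CharZero K] ha hb hc in
theorem Idl.bH {I : Submodule K (Module.End K (Al a b))} (hI : Idl c I) {X} (hX : X ∈ I) :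
    H ![-1, 3, -2] * X - X * H ![-1, 3, -2] ∈ I := by
  have h : ∀ i, H (Pi.single (i + 1) 1 - Pi.single (i + 2) 1) * X -
      X * H (Pi.single (i + 1) 1 - Pi.single (i + 2) 1) ∈ I := by
    intro i
    have h1 := I.sub_mem (hI.bU i o1 _ (hI.bL i o1 X hX)) (hI.bL i o1 _ (hI.bU i o1 X hX))
    rw [← U_L_one c]
    refine (congrArg (· ∈ I) ?_).mp h1
    simp only [mul_sub, sub_mul, mul_assoc]
    abel
  have e : (![-1, 3, -2] : Fin 3 → K) = (3 : K) • (Pi.single (0 + 1) 1 - Pi.single (0 + 2) 1) +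
      (Pi.single (1 + 1) 1 - Pi.single (1 + 2) 1) := by
    funext i
    fin_cases i <;> simp <;> norm_num
  have h2 := I.add_mem (I.smul_mem 3 (h 0)) (h 1)
  rw [e, H_add, H_smul]
  refine (congrArg (· ∈ I) ?_).mp h2
  simp only [smul_sub, add_mul, mul_add, smul_mul_assoc, mul_smul_comm]
  abel

omit [CharZero K] ha hb hc in
theorem root_E (u v : Fin 3 → Oc a b) (j : Fin 3) :
    (∑ i, U c i (u i) + ∑ i, L c i (v i)) (E j) = O (j + 1) (u (j + 1)) + O (j + 2) (v (j + 2)) := by
  have h1 := U_E0 c j (u j)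
  have h2 := U_E2 c (j + 1) (u (j + 1))
  have h3 := U_E1 c (j + 2) (u (j + 2))
  have h4 := L_E0 c j (v j)
  have h5 := L_E2 c (j + 1) (v (j + 1))
  have h6 := L_E1 c (j + 2) (v (j + 2))
  rw [f12] at h2 h5
  rw [f21] at h3 h6
  fin_cases j <;> simp [Fin.sum_univ_three] at h1 h2 h3 h4 h5 h6 ⊢ <;> simp [h1, h2, h3, h4, h5, h6]

/-- The root components of an element of an ideal belong to the ideal. -/
theorem Idl.root {I : Submodule K (Module.End K (Al a b))} (hI : Idl c I) {X} (hX : X ∈ I)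
    (i : Fin 3) : U c i ((X (E (i + 2))).2 i) ∈ I ∧ L c i ((X (E (i + 1))).2 i) ∈ I := by
  obtain ⟨u, hu⟩ : ∃ u : Fin 3 → Oc a b, u = fun i => (X (E (i + 2))).2 i := ⟨_, rfl⟩
  obtain ⟨v, hv⟩ : ∃ v : Fin 3 → Oc a b, v = fun i => (X (E (i + 1))).2 i := ⟨_, rfl⟩
  obtain ⟨Z, hZ⟩ : ∃ Z, Z = X - (∑ i, U c i (u i) + ∑ i, L c i (v i)) := ⟨_, rfl⟩
  have hZd : Z ∈ Der c := hZ ▸ Submodule.sub_mem _ (hI.le hX) (Submodule.add_mem _
    (Submodule.sum_mem _ fun i _ => U_der c i _) (Submodule.sum_mem _ fun i _ => L_der c i _))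
  have hZu : ∀ i, (Z (E (i + 2))).2 i = 0 := by
    intro i
    rw [hZ, LinearMap.sub_apply, root_E, f21, f22]
    simp [O_snd, hu]
  have hZl : ∀ i, (Z (E (i + 1))).2 i = 0 := by
    intro i
    rw [hZ, LinearMap.sub_apply, root_E, f11, f12]
    simp [O_snd, hv]
  let μ : Option (Fin 3 ⊕ Fin 3) → ℤ := fun k =>
    k.elim 0 (Sum.elim ![5, -1, -4] ![-5, 1, 4])
  have hμ : Function.Injective μ := by decide
  let Y : Option (Fin 3 ⊕ Fin 3) → Module.End K (Al a b) := fun k =>
    k.elim Z (Sum.elim (fun i => U c i (u i)) fun i => L c i (v i))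
  have h := mem_of_sum_eig Finset.univ I
    (LinearMap.mulLeft K (H ![-1, 3, -2]) - LinearMap.mulRight K (H ![-1, 3, -2]))
    (fun x hx => hI.bH hx) (fun k => (μ k : K)) (Int.cast_injective.comp hμ) Y ?_ ?_
  · have h1 := h (some (Sum.inl i)) (Finset.mem_univ _)
    have h2 := h (some (Sum.inr i)) (Finset.mem_univ _)
    simp only [Y, hu, hv, Option.elim, Sum.elim_inl, Sum.elim_inr] at h1 h2
    exact ⟨h1, h2⟩
  · rintro (_ | j | j)
    · simpa [Y, μ] using H_blk ha hb hc hZd hZu hZl ![-1, 3, -2]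
    · refine (H_U c ![-1, 3, -2] j (u j)).trans (congrArg (· • U c j (u j)) ?_)
      fin_cases j <;> simp [μ] <;> norm_num
    · refine (H_L c ![-1, 3, -2] j (v j)).trans (congrArg (· • L c j (v j)) ?_)
      fin_cases j <;> simp [μ] <;> norm_num
  · rw [Fintype.sum_option, Fintype.sum_sum_type]
    simpa [Y, hZ] using hX

omit [CharZero K] ha hb hc in
theorem brU (i : Fin 3) (u v : Oc a b) :
    ((U c i u * U c (i + 1) v - U c (i + 1) v * U c i u) (E (i + 2 + 1))).2 (i + 2) =
      oc (om c u v) := by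
  have h := U_E2 c (i + 1) v
  rw [f12] at h
  rw [f21, LinearMap.sub_apply, Module.End.mul_apply, Module.End.mul_apply, h, U_E0, map_zero,
    U_O1]
  simp [O_snd]

omit [CharZero K] ha hb hc in
theorem brL (i : Fin 3) (u v : Oc a b) :
    ((L c (i + 1) v * L c i u - L c i u * L c (i + 1) v) (E (i + 2 + 2))).2 (i + 2) =
      oc (om c u v) := by
  have h := L_O2 c (i + 1) v u
  rw [f12, f11] at h
  rw [f22, LinearMap.sub_apply, Module.End.mul_apply, Module.End.mul_apply, L_E1, L_E0, map_zero,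
    h]
  simp [O_snd]

theorem Idl.one_mem {I : Submodule K (Module.End K (Al a b))} (hI : Idl c I) {i : Fin 3}
    {w : Oc a b} (hw : w ≠ 0) (h : U c i w ∈ I ∨ L c i w ∈ I) : U c 0 o1 ∈ I ∧ L c 0 o1 ∈ I := by
  have a1 : ∀ i u v, U c i u ∈ I → L c (i + 2) (oc (om c u v)) ∈ I := by
    intro i u v hu
    have h1 := (hI.root ha hb hc (I.neg_mem (hI.bU (i + 1) v _ hu)) (i + 2)).2
    rwa [neg_sub, brU] at h1
  have a2 : ∀ i u v, U c (i + 1) v ∈ I → L c (i + 2) (oc (om c u v)) ∈ I := by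
    intro i u v hv
    have h1 := (hI.root ha hb hc (hI.bU i u _ hv) (i + 2)).2
    rwa [brU] at h1
  have b1 : ∀ i u v, L c i u ∈ I → U c (i + 2) (oc (om c u v)) ∈ I := by
    intro i u v hu
    have h1 := (hI.root ha hb hc (hI.bL (i + 1) v _ hu) (i + 2)).1
    rwa [brL] at h1
  have b2 : ∀ i u v, L c (i + 1) v ∈ I → U c (i + 2) (oc (om c u v)) ∈ I := by
    intro i u v hv
    have h1 := (hI.root ha hb hc (I.neg_mem (hI.bL i u _ hv)) (i + 2)).1
    rwa [neg_sub, brL] at h1
  have c1 : ∀ i u, U c i u ∈ I → U c (i + 1) u ∈ I := by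
    intro i u hu
    have h1 := b1 _ _ o1 (a1 i u o1 hu)
    rwa [om_one_right, om_one_right, oc_oc, f22] at h1
  have c2 : ∀ i u, U c i u ∈ I → U c 0 u ∈ I := by
    intro i u hu
    have h1 := c1 i u hu
    have h2 := c1 _ u h1
    rw [f11] at h2
    rcases tri i 0 with h | h | h <;> rw [h] <;> assumption
  obtain ⟨x, hx0, hx⟩ : ∃ x, x ≠ 0 ∧ U c 0 x ∈ I := by
    rcases h with h | h
    · exact ⟨w, hw, c2 i w h⟩
    · have h1 := b1 i w o1 h
      rw [om_one_right] at h1
      exact ⟨oc w, fun h0 => hw (by rw [← oc_oc w, h0, oc_zero]), c2 _ _ h1⟩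
  have h1 : o1 ∈ I.comap (U c 0) := by
    refine one_mem_ideal ha hb hc _ (fun u hu v => ?_) (fun u hu v => ?_) hx hx0
    · have h2 := b1 _ _ o1 (a2 0 v u (c1 0 u hu))
      rw [om_one_right, oc_oc] at h2
      exact c2 _ _ h2
    · have h2 := b1 _ _ o1 (a1 0 u v hu)
      rw [om_one_right, oc_oc] at h2
      exact c2 _ _ h2
  refine ⟨h1, ?_⟩
  have h2 := a1 (0 + 1) o1 o1 (c1 0 o1 h1)
  rwa [om_one_right, oc_one, f12] at h2

theorem Idl.exists_root {I : Submodule K (Module.End K (Al a b))} (hI : Idl c I) (h : I ≠ ⊥) :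
    ∃ i w, w ≠ 0 ∧ (U c i w ∈ I ∨ L c i w ∈ I) := by
  by_contra hn
  push Not at hn
  have hu : ∀ X ∈ I, ∀ i, (X (E (i + 2))).2 i = 0 := fun X hX i => by
    by_contra h0
    exact (hn i _ h0).1 (hI.root ha hb hc hX i).1
  have hl : ∀ X ∈ I, ∀ i, (X (E (i + 1))).2 i = 0 := fun X hX i => by
    by_contra h0
    exact (hn i _ h0).2 (hI.root ha hb hc hX i).2
  refine h ((Submodule.eq_bot_iff _).2 fun X hX => ?_)
  obtain ⟨h1, h2⟩ := blk ha hb hc (hI.le hX) (hu X hX) (hl X hX)
  obtain ⟨m, hm⟩ : ∃ m : Fin 3 → K, m = fun j => (X (E j)).1 j := ⟨_, rfl⟩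
  have h1' : ∀ j, X (E j) = m j • E j := fun j => by rw [hm]; exact h1 j
  have h3 : ∀ i y, (X (O i y)).2 i = m (i + 2) • y := by
    intro i y
    have h4 := hu _ (hI.bU i y X hX) i
    rw [LinearMap.sub_apply, Module.End.mul_apply, Module.End.mul_apply, h1', map_smul, U_E2] at h4
    simp only [Prod.snd_sub, Pi.sub_apply, Prod.smul_snd, Pi.smul_apply, O_snd,
      Pi.single_eq_same] at h4
    exact (sub_eq_zero.1 h4).symm
  have h5 : ∀ i, m (i + 1) = m (i + 2) := by
    intro i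
    have h4 := hl _ (hI.bL i o1 X hX) i
    rw [LinearMap.sub_apply, Module.End.mul_apply, Module.End.mul_apply, h1', map_smul, L_E1] at h4
    simp only [Prod.snd_sub, Pi.sub_apply, Prod.smul_snd, Pi.smul_apply, O_snd,
      Pi.single_eq_same, h3] at h4
    simpa [o1, sub_eq_zero] using congrArg (fun x : Oc a b => x.1.re) h4
  have h6 := hI.le hX (E 0) (E 1) (E 2)
  simp only [h1', map_smul, LinearMap.smul_apply, smul_eq_mul, N_E] at h6
  have h7 := h5 0
  have h8 := h5 1
  simp [E_fst, E_snd, nn_zero_left] at h6 h7 h8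
  have h9 : ∀ j, m j = 0 := by
    have g0 : m 0 = 0 := by linear_combination (h6 - h7 - 2 * h8) / 3
    have g1 : m 1 = 0 := by linear_combination (h6 + 2 * h7 + h8) / 3
    have g2 : m 2 = 0 := by linear_combination (h6 - h7 + h8) / 3
    intro j
    fin_cases j
    exacts [g0, g1, g2]
  refine LinearMap.ext fun x => ?_
  rw [LinearMap.zero_apply, decomp x, map_sum]
  refine Finset.sum_eq_zero fun i _ => ?_
  rw [map_add, map_smul, h1', h2, h3, h9, h9]
  simp [O_zero]

theorem prime {I J : Submodule K (Module.End K (Al a b))} (hI : Idl c I) (hJ : Idl c J)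
    (h : ∀ X ∈ I, ∀ Y ∈ J, X * Y = Y * X) : I = ⊥ ∨ J = ⊥ := by
  by_contra hn
  push Not at hn
  obtain ⟨i, w, hw, hi⟩ := hI.exists_root ha hb hc hn.1
  obtain ⟨j, w', hw', hj⟩ := hJ.exists_root ha hb hc hn.2
  have h1 := LinearMap.congr_fun (h _ (hI.one_mem ha hb hc hw hi).1 _
    (hJ.one_mem ha hb hc hw' hj).2) (E (0 + 2))
  rw [Module.End.mul_apply, Module.End.mul_apply, L_E2, map_zero, U_E2, L_O0, nn_one] at h1
  simpa [E_fst] using congrArg (fun x : Al a b => x.1 (0 + 2)) h1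

omit [CharZero K] ha hb hc in
theorem U_U (i : Fin 3) (x : Al a b) :
    U c i o1 (U c i o1 x) = (2 * x.1 (i + 2)) • E (i + 1) := by
  rw [U_apply c i o1 x, map_add, map_add, map_smul, U_E1, U_O0, U_O2, nn_smul_right, nn_one]
  simp [mul_comm]

theorem exists_E_mem (W : Submodule K (Al a b)) (hW : W ≠ ⊥)
    (h : ∀ i u, ∀ x ∈ W, U c i u x ∈ W) : ∃ j, E j ∈ W := by
  have h1 : ∀ x ∈ W, ∀ i, x.1 (i + 2) ≠ 0 → ∃ j, E j ∈ W := by
    intro x hx i hi
    have h2 := W.smul_mem (2 * x.1 (i + 2))⁻¹ (h i o1 _ (h i o1 x hx))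
    rw [U_U, smul_smul, inv_mul_cancel₀ (by simpa using hi), one_smul] at h2
    exact ⟨_, h2⟩
  by_contra hn
  refine hW ((Submodule.eq_bot_iff _).2 fun x hx => ?_)
  have h2 : ∀ x ∈ W, ∀ i, x.1 i = 0 := fun x hx i => by
    by_contra h0
    exact hn (h1 x hx (i + 1) (by rwa [f12]))
  refine Prod.ext (funext (h2 x hx)) (funext fun i => eq_zero_of_nn ha hb hc fun u => ?_)
  simpa [U_apply, E_fst, O_fst] using h2 _ (h i u x hx) (i + 1)

omit ha hb hc in
theorem scalar_of_comm {f : Module.End K (Al a b)} (h : ∀ i u, f * U c i u = U c i u * f) :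
    ∃ t : K, ∀ x, f x = t • x := by
  have h1 : ∀ i, f (E (i + 1)) = (f (E (i + 2))).1 (i + 2) • E (i + 1) := by
    intro i
    have h2 : f (U c i o1 (U c i o1 (E (i + 2)))) = U c i o1 (U c i o1 (f (E (i + 2)))) := by
      rw [← Module.End.mul_apply, h, Module.End.mul_apply, ← Module.End.mul_apply f, h,
        Module.End.mul_apply]
    rw [U_U, U_U, map_smul] at h2
    simp only [E_fst, Pi.single_eq_same, mul_one] at h2
    rw [mul_smul] at h2
    exact smul_right_injective _ two_ne_zero h2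
  obtain ⟨m, hm⟩ : ∃ m : Fin 3 → K, m = fun j => (f (E j)).1 j := ⟨_, rfl⟩
  have h3 : ∀ i, f (E (i + 1)) = m (i + 2) • E (i + 1) := fun i => by rw [hm]; exact h1 i
  have h4 : ∀ i, m (i + 1) = m (i + 2) := fun i => by
    have h5 := congrArg (fun x : Al a b => x.1 (i + 1)) (h3 i)
    simpa [hm, E_fst] using h5
  have h6 : ∀ j, m j = m 0 := by
    intro j
    have h7 := h4 0
    have h8 := h4 1
    fin_cases j <;> simp at h7 h8 ⊢ <;> simp [h7, h8]
  have h9 : ∀ j, f (E j) = m 0 • E j := fun j => by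
    have := h3 (j + 2)
    rwa [f21, h6] at this
  refine ⟨m 0, fun x => ?_⟩
  rw [decomp x]
  simp only [map_sum, map_add, map_smul, h9, Finset.smul_sum]
  refine Finset.sum_congr rfl fun i _ => ?_
  rw [← U_E2 c, ← Module.End.mul_apply, h, Module.End.mul_apply, h9, map_smul, smul_add, smul_comm]

end Vale.Agent.P011Z.E6
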