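import Mathlib
import Vale.Agent.P011.H900.SpecX

/-!
Identities for octonions.
-/

namespace Vale.Agent.P011Z.E6

open Vale.Agent.P011.H900

variable {K : Type} [Field K] {a b : K} (c : K)

theorem oext {x y : Oc a b} (h1 : x.1.re = y.1.re) (h2 : x.1.imI = y.1.imI)
    (h3 : x.1.imJ = y.1.imJ) (h4 : x.1.imK = y.1.imK) (h5 : x.2.re = y.2.re)
    (h6 : x.2.imI = y.2.imI) (h7 : x.2.imJ = y.2.imJ) (h8 : x.2.imK = y.2.imK) : x = y :=
  Prod.ext (QuaternionAlgebra.ext h1 h2 h3 h4) (QuaternionAlgebra.ext h5 h6 h7 h8)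

/-- The unit. -/
def o1 : Oc a b := (⟨1, 0, 0, 0⟩, ⟨0, 0, 0, 0⟩)

/-- The polar form of the norm. -/
def nn (x y : Oc a b) : K := 2 * re (om c x (oc y))

/-- The trace of a product of three octonions. -/
def tt (x y z : Oc a b) : K := 2 * re (om c (om c x y) z)

theorem om1 (x y : Oc a b) : (om c x y).1.re = x.1.re * y.1.re + a * x.1.imI * y.1.imI +
    b * x.1.imJ * y.1.imJ - a * b * x.1.imK * y.1.imK + c * (y.2.re * x.2.re -
    a * y.2.imI * x.2.imI - b * y.2.imJ * x.2.imJ + a * b * y.2.imK * x.2.imK) := by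
  simp [om, -mul_eq_mul_left_iff, -add_right_inj]
  ring

theorem om2 (x y : Oc a b) : (om c x y).1.imI = x.1.re * y.1.imI + x.1.imI * y.1.re -
    b * x.1.imJ * y.1.imK + b * x.1.imK * y.1.imJ + c * (y.2.re * x.2.imI - y.2.imI * x.2.re +
    b * y.2.imJ * x.2.imK - b * y.2.imK * x.2.imJ) := by
  simp [om, -mul_eq_mul_left_iff, -add_right_inj]
  ring

theorem om3 (x y : Oc a b) : (om c x y).1.imJ = x.1.re * y.1.imJ + a * x.1.imI * y.1.imK +
    x.1.imJ * y.1.re - a * x.1.imK * y.1.imI + c * (y.2.re * x.2.imJ - a * y.2.imI * x.2.imK -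
    y.2.imJ * x.2.re + a * y.2.imK * x.2.imI) := by
  simp [om, -mul_eq_mul_left_iff, -add_right_inj]
  ring

theorem om4 (x y : Oc a b) : (om c x y).1.imK = x.1.re * y.1.imK + x.1.imI * y.1.imJ -
    x.1.imJ * y.1.imI + x.1.imK * y.1.re + c * (y.2.re * x.2.imK - y.2.imI * x.2.imJ +
    y.2.imJ * x.2.imI - y.2.imK * x.2.re) := by
  simp [om, -mul_eq_mul_left_iff, -add_right_inj]
  ring

theorem om5 (x y : Oc a b) : (om c x y).2.re = y.2.re * x.1.re + a * y.2.imI * x.1.imI +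
    b * y.2.imJ * x.1.imJ - a * b * y.2.imK * x.1.imK + (x.2.re * y.1.re -
    a * x.2.imI * y.1.imI - b * x.2.imJ * y.1.imJ + a * b * x.2.imK * y.1.imK) := by
  simp [om, -mul_eq_mul_left_iff, -add_right_inj]
  ring

theorem om6 (x y : Oc a b) : (om c x y).2.imI = y.2.re * x.1.imI + y.2.imI * x.1.re -
    b * y.2.imJ * x.1.imK + b * y.2.imK * x.1.imJ + (-(x.2.re * y.1.imI) + x.2.imI * y.1.re +
    b * x.2.imJ * y.1.imK - b * x.2.imK * y.1.imJ) := by
  simp [om, -mul_eq_mul_left_iff, -add_right_inj]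
  ring

theorem om7 (x y : Oc a b) : (om c x y).2.imJ = y.2.re * x.1.imJ + a * y.2.imI * x.1.imK +
    y.2.imJ * x.1.re - a * y.2.imK * x.1.imI + (-(x.2.re * y.1.imJ) - a * x.2.imI * y.1.imK +
    x.2.imJ * y.1.re + a * x.2.imK * y.1.imI) := by
  simp [om, -mul_eq_mul_left_iff, -add_right_inj]
  ring

theorem om8 (x y : Oc a b) : (om c x y).2.imK = y.2.re * x.1.imK + y.2.imI * x.1.imJ -
    y.2.imJ * x.1.imI + y.2.imK * x.1.re + (-(x.2.re * y.1.imK) - x.2.imI * y.1.imJ +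
    x.2.imJ * y.1.imI + x.2.imK * y.1.re) := by
  simp [om, -mul_eq_mul_left_iff, -add_right_inj]
  ring

theorem oc_eq (x : Oc a b) : oc x =
    (⟨x.1.re, -x.1.imI, -x.1.imJ, -x.1.imK⟩, ⟨-x.2.re, -x.2.imI, -x.2.imJ, -x.2.imK⟩) := by
  apply oext <;> simp [oc]

theorem nn_eq (x y : Oc a b) : nn c x y = 2 * (x.1.re * y.1.re - a * x.1.imI * y.1.imI -
    b * x.1.imJ * y.1.imJ + a * b * x.1.imK * y.1.imK - c * (x.2.re * y.2.re -
    a * x.2.imI * y.2.imI - b * x.2.imJ * y.2.imJ + a * b * x.2.imK * y.2.imK)) := by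
  simp only [nn, re, om1, oc_eq]
  ring

theorem om_add_left (x y z : Oc a b) : om c (x + y) z = om c x z + om c y z := by
  apply oext <;> simp [om] <;> ring

theorem om_add_right (x y z : Oc a b) : om c x (y + z) = om c x y + om c x z := by
  apply oext <;> simp [om] <;> ring

theorem om_smul_left (t : K) (x y : Oc a b) : om c (t • x) y = t • om c x y := by
  apply oext <;> simp [om] <;> ring

theorem om_smul_right (t : K) (x y : Oc a b) : om c x (t • y) = t • om c x y := by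
  apply oext <;> simp [om] <;> ring

theorem om_zero_left (x : Oc a b) : om c 0 x = 0 := by
  apply oext <;> simp [om]

theorem om_zero_right (x : Oc a b) : om c x 0 = 0 := by
  apply oext <;> simp [om]

theorem om_one_left (x : Oc a b) : om c o1 x = x := by
  apply oext <;> simp [om, o1]

theorem om_one_right (x : Oc a b) : om c x o1 = x := by
  apply oext <;> simp [om, o1]

theorem oc_add (x y : Oc a b) : oc (x + y) = oc x + oc y := by
  apply oext <;> simp [oc] <;> ring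

theorem oc_smul (t : K) (x : Oc a b) : oc (t • x) = t • oc x := by
  apply oext <;> simp [oc]

theorem oc_zero : oc (0 : Oc a b) = 0 := by
  apply oext <;> simp [oc]

theorem oc_oc (x : Oc a b) : oc (oc x) = x := by
  apply oext <;> simp [oc]

theorem oc_one : oc (o1 : Oc a b) = o1 := by
  apply oext <;> simp [oc, o1]

theorem re_add (x y : Oc a b) : re (x + y) = re x + re y := by simp [re]

theorem re_smul (t : K) (x : Oc a b) : re (t • x) = t * re x := by simp [re]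

theorem nn_comm (x y : Oc a b) : nn c x y = nn c y x := by
  rw [nn_eq, nn_eq]
  ring

theorem nn_add_left (x y z : Oc a b) : nn c (x + y) z = nn c x z + nn c y z := by
  simp only [nn, om_add_left, re_add]
  ring

theorem nn_add_right (x y z : Oc a b) : nn c x (y + z) = nn c x y + nn c x z := by
  rw [nn_comm, nn_add_left, nn_comm c y, nn_comm c z]

theorem nn_smul_left (t : K) (x y : Oc a b) : nn c (t • x) y = t * nn c x y := by
  simp only [nn, om_smul_left, re_smul]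
  ring

theorem nn_smul_right (t : K) (x y : Oc a b) : nn c x (t • y) = t * nn c x y := by
  rw [nn_comm, nn_smul_left, nn_comm]

theorem nn_zero_left (x : Oc a b) : nn c 0 x = 0 := by
  simp [nn_eq]

theorem nn_zero_right (x : Oc a b) : nn c x 0 = 0 := by
  simp [nn_eq]

theorem nn_one : nn c (o1 : Oc a b) o1 = 2 := by
  simp [nn_eq, o1]

theorem tt_add1 (x x' y z : Oc a b) : tt c (x + x') y z = tt c x y z + tt c x' y z := by
  simp only [tt, om_add_left, re_add]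
  ring

theorem tt_add2 (x y y' z : Oc a b) : tt c x (y + y') z = tt c x y z + tt c x y' z := by
  simp only [tt, om_add_left, om_add_right, re_add]
  ring

theorem tt_add3 (x y z z' : Oc a b) : tt c x y (z + z') = tt c x y z + tt c x y z' := by
  simp only [tt, om_add_right, re_add]
  ring

theorem tt_smul1 (t : K) (x y z : Oc a b) : tt c (t • x) y z = t * tt c x y z := by
  simp only [tt, om_smul_left, re_smul]
  ring

theorem tt_smul2 (t : K) (x y z : Oc a b) : tt c x (t • y) z = t * tt c x y z := by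
  simp only [tt, om_smul_left, om_smul_right, re_smul]
  ring

theorem tt_smul3 (t : K) (x y z : Oc a b) : tt c x y (t • z) = t * tt c x y z := by
  simp only [tt, om_smul_right, re_smul]
  ring

theorem tt_zero1 (y z : Oc a b) : tt c 0 y z = 0 := by
  simp [tt, om_zero_left, re]

theorem tt_zero2 (y z : Oc a b) : tt c y 0 z = 0 := by
  simp [tt, om_zero_left, om_zero_right, re]

theorem tt_zero3 (y z : Oc a b) : tt c y z 0 = 0 := by
  simp [tt, om_zero_right, re]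

theorem tt_cyc (x y z : Oc a b) : tt c x y z = tt c y z x := by
  simp only [tt, re, om1, om2, om3, om4, om5, om6, om7, om8]
  ring

theorem nn_oc_om (x y z : Oc a b) : nn c (oc (om c x y)) z = tt c x y z := by
  simp only [tt, nn_eq, re, oc_eq, om1, om2, om3, om4, om5, om6, om7, om8]
  ring

theorem tt_oc_left (u x y : Oc a b) : 2 * tt c (oc (om c u y)) x y = nn c u x * nn c y y := by
  simp only [tt, nn_eq, re, oc_eq, om1, om2, om3, om4, om5, om6, om7, om8]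
  ring

theorem tt_oc_right (u x y : Oc a b) : 2 * tt c (oc (om c y u)) y x = nn c u x * nn c y y := by
  simp only [tt, nn_eq, re, oc_eq, om1, om2, om3, om4, om5, om6, om7, om8]
  ring

variable {c}

theorem exists_nn [CharZero K] (ha : a ≠ 0) (hb : b ≠ 0) (hc : c ≠ 0) {x : Oc a b} (hx : x ≠ 0) :
    ∃ u, nn c u x ≠ 0 := by
  by_contra h
  push Not at h
  have h1 := h (⟨1, 0, 0, 0⟩, ⟨0, 0, 0, 0⟩)
  have h2 := h (⟨0, 1, 0, 0⟩, ⟨0, 0, 0, 0⟩)
  have h3 := h (⟨0, 0, 1, 0⟩, ⟨0, 0, 0, 0⟩)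
  have h4 := h (⟨0, 0, 0, 1⟩, ⟨0, 0, 0, 0⟩)
  have h5 := h (⟨0, 0, 0, 0⟩, ⟨1, 0, 0, 0⟩)
  have h6 := h (⟨0, 0, 0, 0⟩, ⟨0, 1, 0, 0⟩)
  have h7 := h (⟨0, 0, 0, 0⟩, ⟨0, 0, 1, 0⟩)
  have h8 := h (⟨0, 0, 0, 0⟩, ⟨0, 0, 0, 1⟩)
  simp [nn_eq, ha, hb, hc] at h1 h2 h3 h4 h5 h6 h7 h8
  exact hx (oext h1 h2 h3 h4 h5 h6 h7 h8)

theorem sand_i (w : Oc a b) : a • w + om c (om c (⟨0, 1, 0, 0⟩, ⟨0, 0, 0, 0⟩) w)
    (⟨0, 1, 0, 0⟩, ⟨0, 0, 0, 0⟩) = (⟨2 * a * w.1.re, 2 * a * w.1.imI, 0, 0⟩, ⟨0, 0, 0, 0⟩) := by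
  apply oext <;> simp [om1, om2, om3, om4, om5, om6, om7, om8] <;> ring

theorem sand_j (u v : K) : b • ((⟨u, v, 0, 0⟩, ⟨0, 0, 0, 0⟩) : Oc a b) +
    om c (om c (⟨0, 0, 1, 0⟩, ⟨0, 0, 0, 0⟩) (⟨u, v, 0, 0⟩, ⟨0, 0, 0, 0⟩))
    (⟨0, 0, 1, 0⟩, ⟨0, 0, 0, 0⟩) = (2 * b * u) • o1 := by
  apply oext <;> simp [om1, om2, om3, om4, om5, om6, om7, om8, o1] <;> ring

/-- A nonzero two sided ideal contains the unit. -/
theorem one_mem_ideal [CharZero K] (ha : a ≠ 0) (hb : b ≠ 0) (hc : c ≠ 0)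
    (A : Submodule K (Oc a b)) (hl : ∀ u ∈ A, ∀ v, om c v u ∈ A) (hr : ∀ u ∈ A, ∀ v, om c u v ∈ A)
    {x : Oc a b} (hx : x ∈ A) (h0 : x ≠ 0) : o1 ∈ A := by
  obtain ⟨u, hu⟩ := exists_nn ha hb hc h0
  rw [nn_comm] at hu
  obtain ⟨w, hw⟩ : ∃ w, w = om c x (oc u) := ⟨_, rfl⟩
  have hwA : w ∈ A := hw ▸ hr x hx _
  have hre : w.1.re ≠ 0 := fun h => hu (by rw [nn, ← hw, re, h, mul_zero])
  have h1 := A.add_mem (A.smul_mem a hwA)
    (hr _ (hl _ hwA (⟨0, 1, 0, 0⟩, ⟨0, 0, 0, 0⟩)) (⟨0, 1, 0, 0⟩, ⟨0, 0, 0, 0⟩))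
  rw [sand_i] at h1
  have h2 := A.add_mem (A.smul_mem b h1)
    (hr _ (hl _ h1 (⟨0, 0, 1, 0⟩, ⟨0, 0, 0, 0⟩)) (⟨0, 0, 1, 0⟩, ⟨0, 0, 0, 0⟩))
  rw [sand_j] at h2
  have h4 := A.smul_mem (2 * b * (2 * a * w.1.re))⁻¹ h2
  rwa [smul_smul, inv_mul_cancel₀ (by simp [ha, hb, hre]), one_smul] at h4

section map

variable {Ω : Type} [Field Ω] {a' b' c' : Ω}

/-- A homomorphism of fields applied to the coefficients. -/
def mp (τ : K →+* Ω) (a' b' : Ω) (x : Oc a b) : Oc a' b' :=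
  (⟨τ x.1.re, τ x.1.imI, τ x.1.imJ, τ x.1.imK⟩, ⟨τ x.2.re, τ x.2.imI, τ x.2.imJ, τ x.2.imK⟩)

variable (τ : K →+* Ω)

theorem ap_eq (σ : K →+* K) (x : Oc a b) : ap σ x = mp σ a b x := rfl

theorem mp_add (x y : Oc a b) : mp τ a' b' (x + y) = mp τ a' b' x + mp τ a' b' y := by
  apply oext <;> simp [mp]

theorem mp_smul (t : K) (x : Oc a b) : mp τ a' b' (t • x) = τ t • mp τ a' b' x := by
  apply oext <;> simp [mp]

theorem mp_zero : mp τ a' b' (0 : Oc a b) = 0 := by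
  apply oext <;> simp [mp]

theorem mp_oc (x : Oc a b) : mp τ a' b' (oc x) = oc (mp τ a' b' x) := by
  apply oext <;> simp [mp, oc]

theorem mp_mp {Ω' : Type} [Field Ω'] (τ' : Ω →+* Ω') (a'' b'' : Ω') (x : Oc a b) :
    mp τ' a'' b'' (mp τ a' b' x) = mp (τ'.comp τ) a'' b'' x := rfl

theorem mp_id (x : Oc a b) : mp (RingHom.id K) a b x = x := rfl

variable {τ}

theorem mp_om (ha : τ a = a') (hb : τ b = b') (hc : τ c = c') (x y : Oc a b) :
    mp τ a' b' (om c x y) = om c' (mp τ a' b' x) (mp τ a' b' y) := by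
  apply oext <;> simp only [mp, om1, om2, om3, om4, om5, om6, om7, om8, map_add, map_sub, map_mul,
    map_neg, ha, hb, hc]

theorem nn_mp (ha : τ a = a') (hb : τ b = b') (hc : τ c = c') (x y : Oc a b) :
    nn c' (mp τ a' b' x) (mp τ a' b' y) = τ (nn c x y) := by
  rw [nn, nn, ← mp_oc, ← mp_om ha hb hc, map_mul, map_ofNat]
  rfl

theorem tt_mp (ha : τ a = a') (hb : τ b = b') (hc : τ c = c') (x y z : Oc a b) :
    tt c' (mp τ a' b' x) (mp τ a' b' y) (mp τ a' b' z) = τ (tt c x y z) := by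
  rw [tt, tt, ← mp_om ha hb hc, ← mp_om ha hb hc, map_mul, map_ofNat]
  rfl

end map

end Vale.Agent.P011Z.E6
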