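import Vale.Agent.P011.H900.SpecX
import Mathlib.Tactic.Ring
import Mathlib.Tactic.LinearCombination
import Mathlib.Tactic.Module
import Mathlib.Tactic.FinCases

/-!
Derivations of the cubic norm: the operators.
-/

namespace Vale.Agent.P011Z.E6L

open Vale.Agent.P011.H900

variable {F : Type} [Field F] {a b : F} (c : F)

/-- The bilinear form of the norm of the octonions. -/
def bl (x y : Oc a b) : F := 2 * re (om c x (oc y))

/-- The trace of the product of three octonions. -/
def tr3 (x y z : Oc a b) : F := 2 * re (om c (om c x y) z)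

/-- The polarisation of the cubic norm. -/
def n3 (x y z : Al a b) : F :=
  cub c (x + y + z) - cub c (x + y) - cub c (x + z) - cub c (y + z) + cub c x + cub c y + cub c z

/-- The endomorphism annihilates the polarised cubic norm. -/
def Der (D : Module.End F (Al a b)) : Prop :=
  ∀ x y z, n3 c (D x) y z + n3 c x (D y) z + n3 c x y (D z) = 0

theorem om_add_left (x y z : Oc a b) : om c (x + y) z = om c x z + om c y z := by
  ext <;> simp [om] <;> ring

theorem om_add_right (x y z : Oc a b) : om c x (y + z) = om c x y + om c x z := by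
  ext <;> simp [om] <;> ring

theorem om_smul_left (t : F) (x y : Oc a b) : om c (t • x) y = t • om c x y := by
  ext <;> simp [om] <;> ring

theorem om_smul_right (t : F) (x y : Oc a b) : om c x (t • y) = t • om c x y := by
  ext <;> simp [om] <;> ring

theorem oc_add (x y : Oc a b) : oc (x + y) = oc x + oc y := by
  ext <;> simp [oc] <;> ring

theorem oc_smul (t : F) (x : Oc a b) : oc (t • x) = t • oc x := by
  ext <;> simp [oc]

theorem bl_add_left (x y z : Oc a b) : bl c (x + y) z = bl c x z + bl c y z := by
  simp [bl, re, om, oc]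
  ring

theorem bl_add_right (x y z : Oc a b) : bl c x (y + z) = bl c x y + bl c x z := by
  simp [bl, re, om, oc]
  ring

theorem bl_smul_left (t : F) (x y : Oc a b) : bl c (t • x) y = t * bl c x y := by
  simp [bl, re, om, oc]
  ring

theorem bl_smul_right (t : F) (x y : Oc a b) : bl c x (t • y) = t * bl c x y := by
  simp [bl, re, om, oc]
  ring

theorem bl_eq (x y : Oc a b) : bl c x y =
    2 * (x.1.re * y.1.re - a * x.1.imI * y.1.imI - b * x.1.imJ * y.1.imJ +
      a * b * x.1.imK * y.1.imK - c * (x.2.re * y.2.re - a * x.2.imI * y.2.imI -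
        b * x.2.imJ * y.2.imJ + a * b * x.2.imK * y.2.imK)) := by
  simp only [bl, re, om, oc]
  simp
  left
  ring

theorem bl_comm (x y : Oc a b) : bl c x y = bl c y x := by
  rw [bl_eq, bl_eq]
  ring

/-- The triple with one nonzero entry. -/
abbrev sg (i : Fin 3) (u : Oc a b) : Fin 3 → Oc a b := Pi.single i u

/-- The operator attached to the octonion `u` at the position `(i + 1, i + 2)`. -/
def Xp (i : Fin 3) (u : Oc a b) : Module.End F (Al a b) where
  toFun x := (Pi.single (i + 1) (bl c u (x.2 i)),
    sg i (x.1 (i + 2) • u) + sg (i + 2) (oc (om c u (x.2 (i + 1)))))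
  map_add' x y := by
    simp only [Prod.fst_add, Prod.snd_add, Pi.add_apply, bl_add_right, om_add_right, oc_add,
      add_smul, Pi.single_add, Prod.mk_add_mk]
    rw [add_add_add_comm]
  map_smul' t x := by
    simp only [Prod.smul_fst, Prod.smul_snd, Pi.smul_apply, bl_smul_right, om_smul_right, oc_smul,
      RingHom.id_apply, Prod.smul_mk, smul_add, ← Pi.single_smul', smul_eq_mul, mul_smul]

/-- The operator attached to the conjugate of `u` at the position `(i + 2, i + 1)`. -/
def Xm (i : Fin 3) (u : Oc a b) : Module.End F (Al a b) where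
  toFun x := (Pi.single (i + 2) (bl c u (x.2 i)),
    sg i (x.1 (i + 1) • u) + sg (i + 1) (oc (om c (x.2 (i + 2)) u)))
  map_add' x y := by
    simp only [Prod.fst_add, Prod.snd_add, Pi.add_apply, bl_add_right, om_add_left, oc_add,
      add_smul, Pi.single_add, Prod.mk_add_mk]
    rw [add_add_add_comm]
  map_smul' t x := by
    simp only [Prod.smul_fst, Prod.smul_snd, Pi.smul_apply, bl_smul_right, om_smul_left, oc_smul,
      RingHom.id_apply, Prod.smul_mk, smul_add, ← Pi.single_smul', smul_eq_mul, mul_smul]

/-- The diagonal operators. -/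
def Hd (l : Fin 3 → F) : Module.End F (Al a b) where
  toFun x := (fun i => 2 * l i * x.1 i, fun i => (-l i) • x.2 i)
  map_add' x y := by
    refine Prod.ext (funext fun i => ?_) (funext fun i => ?_)
    · simp [mul_add]
    · simp only [Prod.snd_add, Pi.add_apply, smul_add]
  map_smul' t x := by
    refine Prod.ext (funext fun i => ?_) (funext fun i => ?_)
    · simp [mul_left_comm]
    · simp only [Prod.smul_snd, Pi.smul_apply, RingHom.id_apply, smul_comm t]

theorem Xp_apply (i : Fin 3) (u : Oc a b) (x : Al a b) : Xp c i u x =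
    (Pi.single (i + 1) (bl c u (x.2 i)),
      sg i (x.1 (i + 2) • u) + sg (i + 2) (oc (om c u (x.2 (i + 1))))) := rfl

theorem Xm_apply (i : Fin 3) (u : Oc a b) (x : Al a b) : Xm c i u x =
    (Pi.single (i + 2) (bl c u (x.2 i)),
      sg i (x.1 (i + 1) • u) + sg (i + 1) (oc (om c (x.2 (i + 2)) u))) := rfl

theorem Hd_apply (l : Fin 3 → F) (x : Al a b) :
    Hd l x = (fun i => 2 * l i * x.1 i, fun i => (-l i) • x.2 i) := rfl

/-- The generators. -/
def gens : Set (Module.End F (Al a b)) :=
  {D | (∃ i u, D = Xp c i u) ∨ (∃ i u, D = Xm c i u) ∨ ∃ l : Fin 3 → F, ∑ i, l i = 0 ∧ D = Hd l}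

/-- The first diagonal idempotent. -/
def e0 : Al a b := (Pi.single 0 1, 0)

end Vale.Agent.P011Z.E6L
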